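import Vale.Agent.N224.Strict

/-!
Even dimensions from 18 to 398: the checked tables exclude a hypersurface of small volume with a
positive slack.
-/

namespace Vale.Agent.N224

open MeasureTheory Set Filter Function Real Module Matrix Vale.Agent.P224 Vale.Agent.P224.FV
  Vale.Agent.P224.R2 Vale.Agent.P224.R2.H820 Vale.Agent.P224.R2.H582 Vale.Agent.P224.R2.H627
  Vale.Agent.P224.R2.H728 Vale.Agent.P224.R2.H484 Vale.Agent.P224.R2.H925 Vale.Agent.P224.R2.H577
open Vale.Agent.P224.SM2 hiding ker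
open Vale.Agent.P224.R2.H176 (NearData lam17 abQ abs17_min relD_min lam17_mul_low pow_ten FarU)
open Vale.Agent.P224.R2.H684 (nearX HypX nearX_sound)
open Vale.Agent.P224.R2.H807 (ElT nearT ColT NearHypT nearT_sound moments momQ e7_facts)
open Vale.Agent.P224.R2.H928 (kb_facts)
open Vale.Agent.P224.R2.H424.Tls (relD)
open Vale.Agent.P224.R2.H535 (boxH boxD)
open scoped Topology RealInnerProductSpace ContDiff Manifold

set_option linter.unusedSectionVars false

section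

variable {V W M : Type*} [NormedAddCommGroup V] [InnerProductSpace ℝ V] [FiniteDimensional ℝ V]
  [NormedAddCommGroup W] [InnerProductSpace ℝ W] [FiniteDimensional ℝ W]
  [TopologicalSpace M] [ChartedSpace V M]
  [MeasurableSpace V] [BorelSpace V] [MeasurableSpace M] [BorelSpace M]
  [MeasurableSpace W] [BorelSpace W] [IsManifold 𝓘(ℝ, V) ∞ M]
  [CompactSpace M] [T2Space M]

/-- the instances of the law in the strict form used by the checkers -/
structure LawS {ι Ω : Type*} [Fintype ι] [DecidableEq ι] [MeasurableSpace Ω] (μ : Measure Ω)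
    (x N : ι → Ω → ℝ) (j : ι → ℝ) (m : ℕ) (p : ParQ) (laws : List LawQ) : Prop where
  main : ∀ q ∈ laws, √(fro (De μ x N)) ≤ q.d → hh μ (diagonal j) x N ≤ q.h →
    ∃ W0 W1 τ : ℝ, (q.W0 : ℝ) ≤ W0 ∧ W1 ≤ q.W1
    ∧ τ ≤ q.rel * hh μ (diagonal j) x N ∧ τ ≤ q.ab
    ∧ XL μ p.m x N W0 W1 q.σ (wQ p.m : ℚ) (m * (m + 1) * EM m 1) τ < m * rM m 0 * uu μ N + p.gp
  crude : ∃ WU τ : ℝ, (p.WU : ℝ) ≤ WU ∧ τ ≤ p.tU
    ∧ WU * Qpt μ p.m x N - τ < m * rM m 0 * uu μ N + p.gp
  first : ∃ τ : ℝ, τ ≤ p.tV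
    ∧ XL μ p.m x N 0 0 0 (wQ p.m : ℚ) (m * (m + 1) * EM m 1) τ < m * rM m 0 * uu μ N + p.gp

variable {F N : M → W} {m : ℕ} {b : OrthonormalBasis (Fin (finrank ℝ W)) ℝ W}
  {j : Fin (finrank ℝ W) → ℝ} {p : ParQ} {laws : List LawQ}

/-- all strict instances with one threshold function -/
theorem Ctx.lawS [Nonempty M] (C : Ctx V F N m) {lam be' : ℝ → ℝ} {T1 : ℝ} (hT1 : 0 ≤ T1)
    (hT1' : T1 ≤ 1) (hfr : Fra m lam be' T1)
    (hl : ∀ T ∈ Ioo (0 : ℝ) (1 / 2), 1 ≤ (1 - T ^ 2) * lam T) (hpm : p.m = m) (hgp : p.gp = 0)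
    (hlaws : ∀ q ∈ laws, 0 ≤ q.σ ∧ q.σ ≤ 1 ∧ WNum m lam be' T1 q.σ q.W0 q.W1 ∧
      AbsTail (volM V F) m F N (fun T => (1 - T ^ 2) * lam T) q.ab ∧
      (√(fro (De (nrm (volM V F)) (co b F) (co b N))) ≤ q.d →
        hh (nrm (volM V F)) (diagonal j) (co b F) (co b N) ≤ q.h →
        AbsTail (volM V F) m F N (fun T => (1 - T ^ 2) * lam T)
          (q.rel * hh (nrm (volM V F)) (diagonal j) (co b F) (co b N))))
    (hcr : CNum m lam be' T1 p.WU)
    (htU : AbsTail (volM V F) m F N (fun T => (1 - T ^ 2) * lam T) p.tU)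
    (htV : AbsTail (volM V F) m F N (fun T => (1 - T ^ 2) * lam T) p.tV) :
    LawS (nrm (volM V F)) (co b F) (co b N) j m p laws := by
  have hfin : IsFiniteMeasure (volM V F) := isFiniteMeasure_volM C.hF
  have hpmR : (p.m : ℝ) = (m : ℝ) := by
    rw [hpm]
    push_cast
    rfl
  refine ⟨fun q hq hd hh1 => ?_, ?_, ?_⟩
  · obtain ⟨k1, k2, ⟨B0, B1, i0, i1, hB0, hB1, h0, h1⟩, k4, k5⟩ := hlaws q hq
    obtain ⟨τ, hτi, hτ, hr, ha⟩ := tail_min (k5 hd hh1) k4
    refine ⟨_, _, _, h0, h1, hr, ha, ?_⟩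
    rw [wQ_cast, hpmR, hgp, Rat.cast_zero, add_zero]
    exact C.lawT b (by exact_mod_cast k1) (by exact_mod_cast k2) hT1 hT1' hfr le_rfl hl i0 i1 hB0
      hB1 hτi hτ
  · obtain ⟨T0, B0, hT0, hT01, i0, hB0, h0⟩ := hcr
    obtain ⟨τ, hτi, hτ, ha⟩ := htU
    refine ⟨_, _, h0, ha, ?_⟩
    rw [hpmR, hgp, Rat.cast_zero, add_zero]
    exact C.lawU b hT0 (hT01.trans hT1') hfr hT01 hl i0 hB0 hτi hτ
  · obtain ⟨τ, hτi, hτ, ha⟩ := htV
    refine ⟨_, ha, ?_⟩
    rw [wQ_cast, hpmR, hgp, Rat.cast_zero, add_zero]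
    have h := C.lawT b (σ := 0) (T1 := 0) le_rfl (by norm_num) le_rfl (by norm_num) hfr hT1 hl
      (B0 := fun _ => 0) (B1 := fun _ => 0) (by simp) (by simp)
      (fun T hT => absurd (hT.1.trans hT.2) (lt_irrefl _))
      (fun T hT => absurd (hT.1.trans hT.2) (lt_irrefl _)) hτi hτ
    simp only [intervalIntegral.integral_same] at h
    exact h

/-- the strict instances of a block -/
theorem Ctx.blk [Nonempty M] (C : Ctx V F N m) {B : BlkQ} {nums : List NumE}
    (hin : inOK B m nums p laws = true) (hgp : p.gp = 0)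
    {lam be' : ℝ → ℝ} (hfr : Fra m lam be' B.t1)
    (hl : ∀ T ∈ Ioo (0 : ℝ) (1 / 2), 1 ≤ (1 - T ^ 2) * lam T)
    (hbe : ∀ T ∈ Ioo (0 : ℝ) B.t1, be' T = be m (31 / 10) T (eM m T) (rM m T))
    (hcr : CNum m lam be' B.t1 (9 / 50))
    (hla : ∀ T ∈ Ioo (0 : ℝ) B.t1, lam T ≤ pe B.la 0 T)
    (hlb : ∀ T ∈ Ioo (0 : ℝ) B.t1, pe B.lb 0 T ≤ lam T)
    (hT : T0Data (nrm (volM V F)) (finrank ℝ V) (co b F) (co b N))
    (hL : LSq (nrm (volM V F)) (Matrix.diagonal j) (co b F) (co b N))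
    (ht : TailB V F N m lam b j B) :
    LawS (nrm (volM V F)) (co b F) (co b N) j m p laws := by
  have hfin : IsFiniteMeasure (volM V F) := isFiniteMeasure_volM C.hF
  have hpm := inOK_m hin
  have hmm := C.hm
  simp only [inOK, Bool.and_eq_true, decide_eq_true_eq, List.all_eq_true] at hin
  obtain ⟨⟨⟨⟨⟨h17, ht1⟩, ht1'⟩, hpar⟩, hnums⟩, hlaws⟩ := hin
  simp only [parE, Bool.and_eq_true, decide_eq_true_eq] at hpar
  obtain ⟨⟨⟨⟨⟨-, -⟩, -⟩, c4⟩, c5⟩, c6⟩ := hpar
  have t1R : (3 / 10 : ℝ) ≤ B.t1 := by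
    have h' := castQ ht1
    push_cast at h'
    exact h'
  have t1R' : (B.t1 : ℝ) ≤ 1 := by
    have h' := castQ ht1'
    push_cast at h'
    exact h'
  have hh0 := hT.hh_nonneg (diagonal j)
  have hf0 : 0 ≤ fro (De (nrm (volM V F)) (co b F) (co b N)) := fro_nonneg _
  refine C.lawS (T1 := B.t1) (by linarith) t1R' hfr hl hpm hgp
    (fun q hq => ?_) ?_ (absTail_mono ht.abs (castQ c5)) (absTail_mono ht.abs (castQ c6))
  · have hq' := hlaws q hq
    simp only [lawE, Bool.and_eq_true, decide_eq_true_eq, List.any_eq_true] at hq'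
    obtain ⟨⟨⟨⟨⟨⟨d1, d2⟩, d3⟩, d4⟩, d5⟩, ⟨n, hn, ⟨⟨e1, e2⟩, e3⟩⟩⟩, ⟨k, hk, ⟨g1, g2⟩⟩⟩ := hq'
    have hn' := hnums n hn
    simp only [numOK, Bool.and_eq_true, decide_eq_true_eq] at hn'
    obtain ⟨⟨⟨⟨⟨f1, f2⟩, f3⟩, f4⟩, f5⟩, f6⟩ := hn'
    have hw : WNum m lam be' n.P.t1 n.P.s n.w0 n.w1 := by
      refine wnum_of h17 f1 f2 (fun T hT => ?_) ?_ ?_
      · rw [f4] at hT
        rw [f3, hbe T hT]
        push_cast
        rfl
      · rw [f4, f5]
        exact hla
      · rw [f4, f6]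
        exact hlb
    refine ⟨d1, d2, ?_, absTail_mono ht.abs (castQ d3), fun hd hh1 => ?_⟩
    · obtain ⟨B0, B1, i0, i1, b0, b1, v0, v1⟩ := hw
      rw [f4, ← e1] at *
      exact ⟨B0, B1, i0, i1, b0, b1, (castQ e2).trans v0, v1.trans (castQ e3)⟩
    · refine absTail_mono (ht.rel k hk fun a => ?_) (mul_le_mul_of_nonneg_right (castQ g2) hh0)
      have d4R : (q.d : ℝ) < 1 := by exact_mod_cast d4
      have d5R : (0 : ℝ) ≤ q.d := by exact_mod_cast d5
      have hfb : fro (De (nrm (volM V F)) (co b F) (co b N)) ≤ (q.d : ℝ) ^ 2 := by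
        rw [← Real.sq_sqrt hf0]
        exact pow_le_pow_left₀ (Real.sqrt_nonneg _) hd 2
      have k1 := hT.w_le (by positivity) hL d5R d4R hfb a
      have k2 := castQ g1
      push_cast at k2
      rw [← hmm] at k1
      linarith
  · obtain ⟨T0, B0, e1, e2, e3, e4, e5⟩ := hcr
    have hWUR : (p.WU : ℝ) ≤ 9 / 50 := by
      have h' := castQ c4
      push_cast at h'
      exact h'
    exact ⟨T0, B0, e1, e2, e3, e4, hWUR.trans e5⟩

/-- one dimension from 18 to 36 -/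
theorem Ctx.row [Nonempty M] {r : NRow} (C : Ctx V F N r.m) (hr : nrowOK 17 17 17 17 17 r = true)
    (hm2 : r.m ≤ 36) {els : List (ElQ × ℚ × ℚ)} {cols : List ColQ}
    (hrow : rowOK r p laws (relD r.m) = true)
    (hok : nearOK p laws (els.map Prod.fst) cols = true) (hels : e7All p.m els = true)
    {ν : ℝ} (hν : ν ≤ p.ν) (hgp : p.gp = 0) (hh1 : p.h1 < 0) (hd : NearData V F N b j ν) :
    False := by
  have hfin : IsFiniteMeasure (volM V F) := isFiniteMeasure_volM C.hF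
  have hmm := C.hm
  obtain ⟨hm17, w0, w1, n1, n2, n3⟩ := nrow_sound hr
  simp only [rowOK, Bool.and_eq_true, decide_eq_true_eq, List.all_eq_true] at hrow
  obtain ⟨⟨⟨⟨⟨⟨⟨c1, c2⟩, c3⟩, c4⟩, c5⟩, c6⟩, c7⟩, c8⟩ := hrow
  have habs : AbsTail (volM V F) r.m F N (fun T => (1 - T ^ 2) * lam17 T) (abQ r.m) := by
    rw [hmm]
    exact abs17_min (by omega) (by omega) C.hW C.hF C.hmin C.hNs C.hN
  have hrel := relD_min (by omega) (by omega) C.hW C.hF C.hmin C.hNs C.hN b j hmm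
  have hh0 := hd.t0.hh_nonneg (diagonal j)
  have hpmR : (p.m : ℝ) = (finrank ℝ V : ℝ) := by
    rw [c1, ← hmm]
    push_cast
    rfl
  have hσ := sgQ_nonneg r.m
  have hσ1 : sgQ r.m ≤ 1 := by
    have h17 : (17 : ℚ) ≤ r.m := by exact_mod_cast hm17
    unfold sgQ
    rw [div_le_one (by positivity)]
    nlinarith
  obtain ⟨i0, i1, j0, j1⟩ := W_half (l0 := 17) (l1 := 17) (l2 := 17) (l3 := 17) (l4 := 17) hm17 hσ
    (by norm_num) (by norm_num) (by norm_num) (by norm_num) (by norm_num) (fun T hT => by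
      have := admP17 r.m (T := T) ⟨by linarith [hT.1], hT.2⟩
      norm_num at this ⊢
      exact this) w0 w1
  have hc := certO_M (m := r.m) (by omega)
  have hlam : ∀ T ∈ Ioo (0 : ℝ) (1 / 2), lam17 T = lamP ((17 : ℚ) : ℝ) ((17 : ℚ) : ℝ)
      ((17 : ℚ) : ℝ) ((17 : ℚ) : ℝ) ((17 : ℚ) : ℝ) T := by
    intro T hT
    rw [H176.lam17_low hT.2]
    unfold lamP
    push_cast
    ring
  have hl0 : ∀ T : ℝ, 0 ≤ lamP ((17 : ℚ) : ℝ) ((17 : ℚ) : ℝ) ((17 : ℚ) : ℝ) ((17 : ℚ) : ℝ)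
      ((17 : ℚ) : ℝ) T := by
    intro T
    unfold lamP
    push_cast
    positivity
  have hσR : (0 : ℝ) ≤ (sgQ r.m : ℚ) := by exact_mod_cast hσ
  have hl : LawS (nrm (volM V F)) (co b F) (co b N) j r.m p laws := by
    refine C.lawS (T1 := 1 / 2) (by norm_num) (by norm_num) (fra17 hm17 (by norm_num))
      (fun T hT => ?_) c1 hgp (fun q hq => ?_) ?_ (absTail_mono habs (castQ c6))
      (absTail_mono habs (castQ c7))
    · rw [lam17_mul_low hT.2]
      linarith [pow_ten hT.1.le hT.2.le]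
    · obtain ⟨⟨⟨⟨d1, d2⟩, d3⟩, d4⟩, d5⟩ := c8 q hq
      refine ⟨d1 ▸ hσ, d1 ▸ hσ1, ?_, absTail_mono habs (castQ d4), fun _ _ =>
        absTail_mono hrel (mul_le_mul_of_nonneg_right (castQ d5) hh0)⟩
      rw [d1]
      refine ⟨_, _, i0, i1, fun T hT => ?_, fun T hT => ?_, (castQ d2).trans j0,
        j1.trans (castQ d3)⟩
      · have hT' : T ∈ Ioo (0 : ℝ) 1 := ⟨hT.1, by linarith [hT.2]⟩
        rw [hlam T hT]
        exact b0_le (by norm_num) hσR hT'.1.le hT'.2.le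
          (yM_nonneg (by omega) ⟨hT'.1.le, hT'.2.le⟩) (hc.e0 T hT') (hc.r0 T hT') (hl0 T)
      · have hT' : T ∈ Ioo (0 : ℝ) 1 := ⟨hT.1, by linarith [hT.2]⟩
        rw [hlam T hT]
        exact le_b1 (by norm_num) hσR hT'.1.le hT'.2.le
          (yM_nonneg (by omega) ⟨hT'.1.le, hT'.2.le⟩) (hc.e0 T hT') (hc.r0 T hT') (hl0 T)
    · obtain ⟨T0, B0, e1, e2, e3, e4, e5⟩ := cnum17 (T1 := 1 / 2) hm17 (by norm_num)
      have hWUR : (p.WU : ℝ) ≤ 9 / 50 := by
        have h' := castQ c5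
        push_cast at h'
        exact h'
      exact ⟨T0, B0, e1, e2, e3, e4, hWUR.trans e5⟩
  obtain ⟨WU, τU, u1, u2, u3⟩ := hl.crude
  obtain ⟨τV, v1, v2⟩ := hl.first
  have h := near_sound hok ⟨by rw [hpmR]; exact hd.t0, hd.lsq, n3.trans (castQ c4),
    (castQ c2).trans n1, n2.trans (castQ c3), hd.mean.le.trans hν, hl.main,
    e7All_sound els hels (by rw [hpmR]; exact hd.t0) hd.lsq⟩ u1 u2 v1 u3 v2
  have h3 : (p.h1 : ℝ) < 0 := by exact_mod_cast hh1
  linarith [h.1]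

lemma parB_even {H D : ℕ → ℚ} (hp : parB H D m p = true) (hev : Even m) :
    p.gp = 0 ∧ (p.h1 : ℝ) < 0 := by
  unfold parB at hp
  rw [if_pos (Nat.even_iff.1 hev)] at hp
  simp only [Bool.and_eq_true, decide_eq_true_eq] at hp
  exact ⟨hp.1, by exact_mod_cast hp.2⟩

/-- a checked entry, first form of the table -/
theorem no_X {B : BlkQ} {ν : ℚ} {H D : ℕ → ℚ} {e : EntX} (he : entXOK B ν H D e = true)
    (hmm : e.m = finrank ℝ V) (hev : Even e.m) (hd : NearData V F N b j ν)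
    (hlaw : inOK B e.m e.nums e.p e.laws = true → e.p.gp = 0 →
      LawS (nrm (volM V F)) (co b F) (co b N) j e.m e.p e.laws) : False := by
  simp only [entXOK, Bool.and_eq_true, decide_eq_true_eq] at he
  obtain ⟨⟨⟨⟨h1, h2⟩, h3⟩, h4⟩, h5⟩ := he
  obtain ⟨hgp, hh1⟩ := parB_even h5 hev
  have hl := hlaw h1 hgp
  have hpmR : (e.p.m : ℝ) = (finrank ℝ V : ℝ) := by
    rw [inOK_m h1, ← hmm]
    push_cast
    rfl
  simp only [inOK, Bool.and_eq_true, decide_eq_true_eq] at h1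
  obtain ⟨⟨⟨⟨⟨h17, -⟩, -⟩, hpar⟩, -⟩, -⟩ := h1
  simp only [parE, Bool.and_eq_true, decide_eq_true_eq] at hpar
  obtain ⟨⟨⟨⟨⟨-, c2⟩, c3⟩, -⟩, -⟩, -⟩ := hpar
  obtain ⟨n1, n2⟩ := chkE_sound h17 c2
  obtain ⟨WU, τU, u1, u2, u3⟩ := hl.crude
  obtain ⟨τV, v1, v2⟩ := hl.first
  have h := nearX_sound h2 ⟨by rw [hpmR]; exact hd.t0, hd.lsq, (le_gq2 h17).trans (castQ c3),
    n1, n2, hd.mean.le.trans (castQ h4), fun q hq g1 g2 => by
      obtain ⟨W0, W1, τ, k1, k2, k3, k4, k5⟩ := hl.main q hq g1 g2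
      exact ⟨W0, W1, τ, k1, k2, fun _ => k3, k4, k5⟩,
    e7All_sound e.els h3 (by rw [hpmR]; exact hd.t0) hd.lsq⟩ u1 u2 v1 u3 v2
  linarith [h.1, hd.t0.hh_nonneg (diagonal j)]

/-- a checked entry, second form of the table -/
theorem no_K {B : BlkQ} {ν : ℚ} {H D : ℕ → ℚ} {e : EntK} (he : entKOK B ν H D e = true)
    (C : Ctx V F N e.e.m) (hev : Even e.e.m) (hd : NearData V F N b j ν)
    (hlaw : inOK B e.e.m e.e.nums e.e.p e.e.laws = true → e.e.p.gp = 0 →
      LawS (nrm (volM V F)) (co b F) (co b N) j e.e.m e.e.p e.e.laws) : False := by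
  simp only [entKOK, Bool.and_eq_true, decide_eq_true_eq] at he
  obtain ⟨⟨⟨⟨⟨h1, h2⟩, h3⟩, h4⟩, h5⟩, h6⟩ := he
  obtain ⟨hgp, hh1⟩ := parB_even h6 hev
  have hl := hlaw h1 hgp
  have hmm := C.hm
  have hpm := inOK_m h1
  have hpmR : (e.e.p.m : ℝ) = (finrank ℝ V : ℝ) := by
    rw [hpm, ← hmm]
    push_cast
    rfl
  have hpmQ : e.e.p.m = (finrank ℝ V : ℚ) := by rw [hpm, ← hmm]
  have hν : (ν : ℝ) ≤ e.e.p.ν := castQ h5
  simp only [inOK, Bool.and_eq_true, decide_eq_true_eq] at h1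
  obtain ⟨⟨⟨⟨⟨h17, -⟩, -⟩, hpar⟩, -⟩, -⟩ := h1
  simp only [parE, Bool.and_eq_true, decide_eq_true_eq] at hpar
  obtain ⟨⟨⟨⟨⟨-, c2⟩, c3⟩, -⟩, -⟩, -⟩ := hpar
  obtain ⟨n1, n2⟩ := chkE_sound h17 c2
  obtain ⟨WU, τU, u1, u2, u3⟩ := hl.crude
  obtain ⟨τV, v1, v2⟩ := hl.first
  have hQ : momQ e.e.p.m e.e.k ≤ e.e.M := by
    simp only [nearT, Bool.and_eq_true, decide_eq_true_eq] at h4
    exact h4.1.2
  have h := nearT_sound h4 ⟨by rw [hpmR]; exact hd.t0, hd.lsq, (le_gq2 h17).trans (castQ c3),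
    n1, n2, hd.mean.le.trans hν,
    moments C.hW C.hF C.hmin hd.smooth hd.unit b hd.t0.prob hpmQ hQ, hl.main, fun f hf => by
      rcases List.mem_append.1 hf with hf | hf
      · rcases List.mem_append.1 hf with hf | hf
        · exact e7_facts h2 (by rw [hpmR]; exact hd.t0) hd.lsq f hf
        · rw [List.mem_singleton] at hf
          subst hf
          exact nuF_fact hν hd
      · exact kb_facts C.hW C.hF C.hmin hpmQ h3 hd f hf⟩ u1 u2 v1 u3 v2
  linarith [h.1, hd.t0.hh_nonneg (diagonal j)]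

lemma blk_t1 (c1 ab : ℚ) (rels : List (ℚ × ℚ)) : (((blkX c1 ab rels).t1 : ℚ) : ℝ) = 1 / 2 := by
  unfold blkX
  push_cast
  rfl

/-- the strict instances, dimensions from 36 to 100 -/
theorem Ctx.lawA [Nonempty M] (C : Ctx V F N m) (h36 : 36 ≤ m) {ab : ℚ} {rels : List (ℚ × ℚ)}
    {nums : List NumE} {m1 m2 : ℕ} {x : ℚ}
    (hab : absOKg 200 wR m1 x (lcG kR (91 / 5) (61 / 5)) ab = true) (h17 : 17 ≤ m1)
    (hm1 : m1 ≤ m) (hm2 : m ≤ m2) (h1000 : m2 ≤ 1000) (hx : x * m2 ≤ 1) (hx0 : 0 ≤ x) {ν : ℝ}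
    (hrel : H925.RelU (91 / 5 : ℚ) (61 / 5 : ℚ) V W M rels ν m F) (hd : NearData V F N b j ν)
    (hin : inOK (blkX (91 / 5) ab (rels ++ [relFree])) m nums p laws = true) (hgp : p.gp = 0) :
    LawS (nrm (volM V F)) (co b F) (co b N) j m p laws := by
  have ht := blk_t1 (91 / 5) ab (rels ++ [relFree])
  have a1 : (0 : ℝ) ≤ ((61 / 5 : ℚ) : ℝ) := by push_cast; norm_num
  have a2 : (4 / 3 : ℝ) * ((61 / 5 : ℚ) : ℝ) ≤ ((91 / 5 : ℚ) : ℝ) := by push_cast; norm_num
  have ha : AdmF m (lamX ((91 / 5 : ℚ) : ℝ) ((61 / 5 : ℚ) : ℝ)) := by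
    have h := admX1 h36
    push_cast
    exact h
  refine C.blk hin hgp (lam := lamX ((91 / 5 : ℚ) : ℝ) ((61 / 5 : ℚ) : ℝ)) (be' := beM m)
    (fraM C.h17 ha (by rw [ht]; norm_num)) (fun T hT => ?_) (fun _ _ => rfl)
    (cnumM C.h17 (lamX_hl a1 a2 (by push_cast; norm_num)) (by rw [ht]; norm_num))
    (fun T hT => lamX_le (by norm_num) a1 a2 (by rw [ht] at hT; exact hT))
    (fun T hT => le_lamX (by norm_num) a1 a2 (by rw [ht] at hT; exact hT)) hd.t0 hd.lsq
    ⟨abs_X C.hW C.hF C.hmin C.hNs C.hN C.hm hab h17 hm1 (inv_of (by omega) hm2 hx hx0)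
      (by norm_num),
    relU_free (by norm_num) (by norm_num) C.h17 (by omega) C.hm C.hW C.hF C.hmin hrel N b j hd⟩
  rw [lamX_half hT a1 a2]
  push_cast
  norm_num

/-- the strict instances, dimensions from 100 on -/
theorem Ctx.lawC [Nonempty M] (C : Ctx V F N m) {ab : ℚ} {rels : List (ℚ × ℚ)}
    {nums : List NumE} {m1 m2 : ℕ} {x : ℚ}
    (hab : absOKg 200 wR m1 x (lcG kR (96 / 5) (53 / 4)) ab = true) (h100 : 100 ≤ m1)
    (hm1 : m1 ≤ m) (hm2 : m ≤ m2) (h1000 : m2 ≤ 1000) (hx : x * m2 ≤ 1) (hx0 : 0 ≤ x) {ν : ℝ}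
    (hrel : H925.RelU (96 / 5 : ℚ) (53 / 4 : ℚ) V W M rels ν m F) (hd : NearData V F N b j ν)
    (hin : inOK (blkX (96 / 5) ab (rels ++ [relFree])) m nums p laws = true) (hgp : p.gp = 0) :
    LawS (nrm (volM V F)) (co b F) (co b N) j m p laws := by
  have ht := blk_t1 (96 / 5) ab (rels ++ [relFree])
  have a1 : (0 : ℝ) ≤ ((53 / 4 : ℚ) : ℝ) := by push_cast; norm_num
  have a2 : (4 / 3 : ℝ) * ((53 / 4 : ℚ) : ℝ) ≤ ((96 / 5 : ℚ) : ℝ) := by push_cast; norm_num
  have htm : 2 / (m : ℝ) ≤ 1 / 50 := by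
    have h : (100 : ℝ) ≤ m := by
      have : 100 ≤ m := by omega
      exact_mod_cast this
    rw [div_le_div_iff₀ (by linarith) (by norm_num)]
    linarith
  refine C.blk hin hgp (lam := lamX ((96 / 5 : ℚ) : ℝ) ((53 / 4 : ℚ) : ℝ)) (be' := beR m)
    (fra_R C.h17 pkc htm (fun T hT => lamX_adm hT) (by rw [ht]; norm_num)) (fun T hT => ?_)
    (beR_be (by rw [ht]; norm_num))
    (cnumR (by omega) (fun T hT => ?_) (by rw [ht]; norm_num))
    (fun T hT => lamX_le (by norm_num) a1 a2 (by rw [ht] at hT; exact hT))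
    (fun T hT => le_lamX (by norm_num) a1 a2 (by rw [ht] at hT; exact hT)) hd.t0 hd.lsq
    ⟨abs_X C.hW C.hF C.hmin C.hNs C.hN C.hm hab (by omega) hm1 (inv_of (by omega) hm2 hx hx0)
      (by norm_num),
    relU_free (by norm_num) (by norm_num) C.h17 (by omega) C.hm C.hW C.hF C.hmin hrel N b j hd⟩
  · rw [lamX_half hT a1 a2]
    push_cast
    norm_num
  · rw [lamX_half ⟨hT.1, by linarith [hT.2]⟩ a1 a2]
    push_cast
    norm_num

/-- a block of dimensions from 36 to 100 -/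
theorem no_A [Nonempty M] (C : Ctx V F N (finrank ℝ V)) (hev : Even (finrank ℝ V))
    {ab : ℚ} {rels : List (ℚ × ℚ)} {ν : ℚ} {ents : List EntX} {a n : ℕ}
    (hms : ents.map EntX.m = List.range' a n)
    (hents : ∀ e ∈ ents, entXOK (blkX (91 / 5) ab (rels ++ [relFree])) ν boxH boxD e = true)
    {m1 : ℕ} (m2 : ℕ) {x : ℚ} (hab : absOKg 200 wR m1 x (lcG kR (91 / 5) (61 / 5)) ab = true)
    (hnum : 36 ≤ m1 ∧ m1 ≤ a ∧ a + n ≤ m2 + 1 ∧ m2 ≤ 1000 ∧ x * m2 ≤ 1 ∧ 0 ≤ x)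
    (h1 : a ≤ finrank ℝ V) (h2 : finrank ℝ V < a + n)
    (hrel : H925.RelU (91 / 5 : ℚ) (61 / 5 : ℚ) V W M rels ν (finrank ℝ V) F)
    (hd : NearData V F N b j ν) : False := by
  obtain ⟨e, he, hem⟩ := ent_mem hms h1 h2
  obtain ⟨k1, k2, k3, k4, k5, k6⟩ := hnum
  rw [← hem] at C hev hrel
  exact no_X (hents e he) hem hev hd
    (C.lawA (by omega) hab (by omega) (by omega) (by omega) k4 k5 k6 hrel hd)

/-- a block of dimensions from 100 on, first form of the table -/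
theorem no_C [Nonempty M] (C : Ctx V F N (finrank ℝ V)) (hev : Even (finrank ℝ V))
    {ab : ℚ} {rels : List (ℚ × ℚ)} {ν : ℚ} {ents : List EntX} {a n : ℕ}
    (hms : ents.map EntX.m = List.range' a n)
    (hents : ∀ e ∈ ents, entXOK (blkX (96 / 5) ab (rels ++ [relFree])) ν boxH boxD e = true)
    {m1 : ℕ} (m2 : ℕ) {x : ℚ} (hab : absOKg 200 wR m1 x (lcG kR (96 / 5) (53 / 4)) ab = true)
    (hnum : 100 ≤ m1 ∧ m1 ≤ a ∧ a + n ≤ m2 + 1 ∧ m2 ≤ 1000 ∧ x * m2 ≤ 1 ∧ 0 ≤ x)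
    (h1 : a ≤ finrank ℝ V) (h2 : finrank ℝ V < a + n)
    (hrel : H925.RelU (96 / 5 : ℚ) (53 / 4 : ℚ) V W M rels ν (finrank ℝ V) F)
    (hd : NearData V F N b j ν) : False := by
  obtain ⟨e, he, hem⟩ := ent_mem hms h1 h2
  obtain ⟨k1, k2, k3, k4, k5, k6⟩ := hnum
  rw [← hem] at C hev hrel
  exact no_X (hents e he) hem hev hd (C.lawC hab k1 (by omega) (by omega) k4 k5 k6 hrel hd)

/-- a block of dimensions from 100 on, second form of the table -/
theorem no_KC [Nonempty M] (C : Ctx V F N (finrank ℝ V)) (hev : Even (finrank ℝ V))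
    {ab : ℚ} {rels : List (ℚ × ℚ)} {ν : ℚ} {ents : List EntK} {a n : ℕ}
    (hms : ents.map (fun e => e.e.m) = List.range' a n)
    (hents : ∀ e ∈ ents, entKOK (blkX (96 / 5) ab (rels ++ [relFree])) ν boxH boxD e = true)
    {m1 : ℕ} (m2 : ℕ) {x : ℚ} (hab : absOKg 200 wR m1 x (lcG kR (96 / 5) (53 / 4)) ab = true)
    (hnum : 100 ≤ m1 ∧ m1 ≤ a ∧ a + n ≤ m2 + 1 ∧ m2 ≤ 1000 ∧ x * m2 ≤ 1 ∧ 0 ≤ x)
    (h1 : a ≤ finrank ℝ V) (h2 : finrank ℝ V < a + n)
    (hrel : H925.RelU (96 / 5 : ℚ) (53 / 4 : ℚ) V W M rels ν (finrank ℝ V) F)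
    (hd : NearData V F N b j ν) : False := by
  obtain ⟨e, he, hem⟩ := ent_mem hms h1 h2
  obtain ⟨k1, k2, k3, k4, k5, k6⟩ := hnum
  rw [← hem] at C hev hrel
  exact no_K (hents e he) C hev hd (C.lawC hab k1 (by omega) (by omega) k4 k5 k6 hrel hd)

variable [ConnectedSpace M]

/-- the even dimensions from 18 to 34 -/
theorem no_18 (C : Ctx V F N (finrank ℝ V)) (hng : ¬ ∃ a : W, a ≠ 0 ∧ ∀ x, ⟪F x, a⟫ = 0)
    (hnear : ∀ ν, FarU V ν F → NearData V F N b j ν) {k : ℕ} (h1 : 9 ≤ k) (h2 : k ≤ 17)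
    (hV : finrank ℝ V = 2 * k) : False := by
  have hd := hnear (3 / 100) fun N hNs hN htop hhi =>
    H979.far_thin_even h1 h2 hV C.hW C.hF C.hmin hng hNs hN htop hhi
  interval_cases k
  · exact Ctx.row (r := TbE.r18) (by rw [hV] at C; exact C) TbE.r18_ok (by decide) TbE.row18
      TbE.ok18 TbE.el18 (by norm_num [TbE.p18]) rfl (by norm_num [TbE.p18]) hd
  · exact Ctx.row (r := TbE.r20) (by rw [hV] at C; exact C) TbE.r20_ok (by decide) TbE.row20
      TbE.ok20 TbE.el20 (by norm_num [TbE.p20]) rfl (by norm_num [TbE.p20]) hd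
  · exact Ctx.row (r := TbE.r22) (by rw [hV] at C; exact C) TbE.r22_ok (by decide) TbE.row22
      TbE.ok22 TbE.el22 (by norm_num [TbE.p22]) rfl (by norm_num [TbE.p22]) hd
  · exact Ctx.row (r := TbE.r24) (by rw [hV] at C; exact C) TbE.r24_ok (by decide) TbE.row24
      TbE.ok24 TbE.el24 (by norm_num [TbE.p24]) rfl (by norm_num [TbE.p24]) hd
  · exact Ctx.row (r := TbE.r26) (by rw [hV] at C; exact C) TbE.r26_ok (by decide) TbE.row26
      TbE.ok26 TbE.el26 (by norm_num [TbE.p26]) rfl (by norm_num [TbE.p26]) hd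
  · exact Ctx.row (r := TbE.r28) (by rw [hV] at C; exact C) TbE.r28_ok (by decide) TbE.row28
      TbE.ok28 TbE.el28 (by norm_num [TbE.p28]) rfl (by norm_num [TbE.p28]) hd
  · exact Ctx.row (r := TbE.r30) (by rw [hV] at C; exact C) TbE.r30_ok (by decide) TbE.row30
      TbE.ok30 TbE.el30 (by norm_num [TbE.p30]) rfl (by norm_num [TbE.p30]) hd
  · exact Ctx.row (r := TbE.r32) (by rw [hV] at C; exact C) TbE.r32_ok (by decide) TbE.row32
      TbE.ok32 TbE.el32 (by norm_num [TbE.p32]) rfl (by norm_num [TbE.p32]) hd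
  · exact Ctx.row (r := TbE.r34) (by rw [hV] at C; exact C) TbE.r34_ok (by decide) TbE.row34
      TbE.ok34 TbE.el34 (by norm_num [TbE.p34]) rfl (by norm_num [TbE.p34])
      (hnear _ (H176.far34 (by rw [hV]) C.hW C.hF C.hmin hng))

/-- the even dimensions from 36 to 40 -/
theorem no_36 (C : Ctx V F N (finrank ℝ V)) (hng : ¬ ∃ a : W, a ≠ 0 ∧ ∀ x, ⟪F x, a⟫ = 0)
    (hnear : ∀ ν, FarU V ν F → NearData V F N b j ν) (hev : Even (finrank ℝ V))
    (h1 : 36 ≤ finrank ℝ V) (h2 : finrank ℝ V ≤ 40) : False := by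
  have hd := hnear ((3 / 100 : ℚ) : ℝ)
    (H444.far_36_le (by push_cast; norm_num) (by omega) C.hW C.hF C.hmin hng)
  exact no_A C hev H179.E36.ents_m H179.E36.ents_ok 60 okA_36_60 (by norm_num) (by omega)
    (by omega) (relU_44 (by omega) (by omega) C.hW C.hF C.hmin (by decide +kernel)) hd

/-- the even dimensions from 41 to 59 -/
theorem no_41 (C : Ctx V F N (finrank ℝ V)) (hng : ¬ ∃ a : W, a ≠ 0 ∧ ∀ x, ⟪F x, a⟫ = 0)
    (hnear : ∀ ν, FarU V ν F → NearData V F N b j ν) (hev : Even (finrank ℝ V))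
    (h1 : 41 ≤ finrank ℝ V) (h2 : finrank ℝ V ≤ 59) : False := by
  have hd := hnear ((1 / 40 : ℚ) : ℝ)
    (H444.far_41_le (by push_cast; norm_num) (by omega) C.hW C.hF C.hmin hng)
  rcases le_or_gt (finrank ℝ V) 44 with h | h
  · exact no_A C hev H179.E41.ents_m H179.E41.ents_ok 60 okA_36_60 (by norm_num) (by omega)
      (by omega) (relU_44 (by omega) (by omega) C.hW C.hF C.hmin (by decide +kernel)) hd
  exact no_A C hev H179.E41.ents_m H179.E41.ents_ok 60 okA_36_60 (by norm_num) (by omega)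
    (by omega) (H684.relF_45 (by omega) (by omega) C.hW C.hF C.hmin) hd

/-- the even dimensions from 60 to 99 -/
theorem no_60 (C : Ctx V F N (finrank ℝ V)) (hng : ¬ ∃ a : W, a ≠ 0 ∧ ∀ x, ⟪F x, a⟫ = 0)
    (hnear : ∀ ν, FarU V ν F → NearData V F N b j ν) (hev : Even (finrank ℝ V))
    (h1 : 60 ≤ finrank ℝ V) (h2 : finrank ℝ V ≤ 99) : False := by
  have hd := hnear ((3 / 200 : ℚ) : ℝ)
    (H444.far_60_le (by push_cast; norm_num) (by omega) C.hW C.hF C.hmin hng)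
  rcases le_or_gt (finrank ℝ V) 69 with h | h
  · exact no_A C hev H179.E60.ents_m H179.E60.ents_ok 100 okA_60_100 (by norm_num) (by omega)
      (by omega) (H684.relF_60 (by omega) (by omega) C.hW C.hF C.hmin) hd
  rcases le_or_gt (finrank ℝ V) 79 with h | h
  · exact no_A C hev H179.E70.ents_m H179.E70.ents_ok 100 okA_60_100 (by norm_num) (by omega)
      (by omega) (H684.relF_60 (by omega) (by omega) C.hW C.hF C.hmin) hd
  rcases le_or_gt (finrank ℝ V) 89 with h | h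
  · exact no_A C hev H179.E80.ents_m H179.E80.ents_ok 100 okA_60_100 (by norm_num) (by omega)
      (by omega) (H684.relF_60 (by omega) (by omega) C.hW C.hF C.hmin) hd
  exact no_A C hev H179.E90.ents_m H179.E90.ents_ok 100 okA_60_100 (by norm_num) (by omega)
    (by omega) (H684.relF_60 (by omega) (by omega) C.hW C.hF C.hmin) hd

/-- the even dimensions from 100 to 139 -/
theorem no_100 (C : Ctx V F N (finrank ℝ V)) (hng : ¬ ∃ a : W, a ≠ 0 ∧ ∀ x, ⟪F x, a⟫ = 0)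
    (hnear : ∀ ν, FarU V ν F → NearData V F N b j ν) (hev : Even (finrank ℝ V))
    (h1 : 100 ≤ finrank ℝ V) (h2 : finrank ℝ V ≤ 139) : False := by
  have hd := hnear ((21 / 2000 : ℚ) : ℝ)
    (H444.far_100_le (by push_cast; norm_num) (by omega) C.hW C.hF C.hmin hng)
  rcases le_or_gt (finrank ℝ V) 109 with h | h
  · exact no_C C hev H179.E100.ents_m H179.E100.ents_ok 140 H684.okC_100_140 (by norm_num) (by omega)
      (by omega) (H684.relF_100 (by omega) (by omega) C.hW C.hF C.hmin) hd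
  rcases le_or_gt (finrank ℝ V) 119 with h | h
  · exact no_C C hev H179.E110.ents_m H179.E110.ents_ok 140 H684.okC_100_140 (by norm_num) (by omega)
      (by omega) (H684.relF_100 (by omega) (by omega) C.hW C.hF C.hmin) hd
  rcases le_or_gt (finrank ℝ V) 129 with h | h
  · exact no_C C hev H179.E120.ents_m H179.E120.ents_ok 140 H684.okC_100_140 (by norm_num) (by omega)
      (by omega) (H684.relF_100 (by omega) (by omega) C.hW C.hF C.hmin) hd
  exact no_C C hev H179.E130.ents_m H179.E130.ents_ok 140 H684.okC_100_140 (by norm_num) (by omega)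
    (by omega) (H684.relF_100 (by omega) (by omega) C.hW C.hF C.hmin) hd

/-- the even dimensions from 140 to 149 -/
theorem no_140 (C : Ctx V F N (finrank ℝ V)) (hng : ¬ ∃ a : W, a ≠ 0 ∧ ∀ x, ⟪F x, a⟫ = 0)
    (hnear : ∀ ν, FarU V ν F → NearData V F N b j ν) (hev : Even (finrank ℝ V))
    (h1 : 140 ≤ finrank ℝ V) (h2 : finrank ℝ V ≤ 149) : False := by
  have hd := hnear ((21 / 2000 : ℚ) : ℝ)
    (H444.far_100_le (by push_cast; norm_num) (by omega) C.hW C.hF C.hmin hng)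
  exact no_KC C hev H253.K140.ents_m H253.K140.ents_ok 150 H684.okC_100_150 (by norm_num) (by omega)
    (by omega) (H684.relF_140 (by omega) (by omega) C.hW C.hF C.hmin) hd

/-- the even dimensions from 150 to 199 -/
theorem no_150 (C : Ctx V F N (finrank ℝ V)) (hng : ¬ ∃ a : W, a ≠ 0 ∧ ∀ x, ⟪F x, a⟫ = 0)
    (hnear : ∀ ν, FarU V ν F → NearData V F N b j ν) (hev : Even (finrank ℝ V))
    (h1 : 150 ≤ finrank ℝ V) (h2 : finrank ℝ V ≤ 199) : False := by
  have hd := hnear ((17 / 2500 : ℚ) : ℝ)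
    (H444.far_150_le (by push_cast; norm_num) (by omega) C.hW C.hF C.hmin hng)
  rcases le_or_gt (finrank ℝ V) 159 with h | h
  · exact no_KC C hev H253.B150.ents_m H253.B150.ents_ok 200 ab_150_199 (by norm_num) (by omega)
      (by omega) (H684.relF_150 (by omega) (by omega) C.hW C.hF C.hmin) hd
  rcases le_or_gt (finrank ℝ V) 169 with h | h
  · exact no_KC C hev H253.B160.ents_m H253.B160.ents_ok 200 ab_150_199 (by norm_num) (by omega)
      (by omega) (H684.relF_150 (by omega) (by omega) C.hW C.hF C.hmin) hd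
  rcases le_or_gt (finrank ℝ V) 179 with h | h
  · exact no_KC C hev H253.B170.ents_m H253.B170.ents_ok 200 ab_150_199 (by norm_num) (by omega)
      (by omega) (H684.relF_150 (by omega) (by omega) C.hW C.hF C.hmin) hd
  rcases le_or_gt (finrank ℝ V) 189 with h | h
  · exact no_KC C hev H253.B180.ents_m H253.B180.ents_ok 200 ab_150_199 (by norm_num) (by omega)
      (by omega) (H684.relF_150 (by omega) (by omega) C.hW C.hF C.hmin) hd
  exact no_KC C hev H253.B190.ents_m H253.B190.ents_ok 200 ab_150_199 (by norm_num) (by omega)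
    (by omega) (H684.relF_150 (by omega) (by omega) C.hW C.hF C.hmin) hd

/-- the even dimensions from 200 to 229 -/
theorem no_200 (C : Ctx V F N (finrank ℝ V)) (hng : ¬ ∃ a : W, a ≠ 0 ∧ ∀ x, ⟪F x, a⟫ = 0)
    (hnear : ∀ ν, FarU V ν F → NearData V F N b j ν) (hev : Even (finrank ℝ V))
    (h1 : 200 ≤ finrank ℝ V) (h2 : finrank ℝ V ≤ 229) : False := by
  have hd := hnear ((59 / 10000 : ℚ) : ℝ)
    (H444.far_200_le (by push_cast; norm_num) (by omega) C.hW C.hF C.hmin hng)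
  rcases le_or_gt (finrank ℝ V) 209 with h | h
  · exact no_KC C hev H253.B200.ents_m H253.B200.ents_ok 230 ab_200_229 (by norm_num) (by omega)
      (by omega) (H684.relF_200 (by omega) (by omega) C.hW C.hF C.hmin) hd
  rcases le_or_gt (finrank ℝ V) 219 with h | h
  · exact no_KC C hev H253.B210.ents_m H253.B210.ents_ok 230 ab_200_229 (by norm_num) (by omega)
      (by omega) (H684.relF_200 (by omega) (by omega) C.hW C.hF C.hmin) hd
  exact no_KC C hev H253.B220.ents_m H253.B220.ents_ok 230 ab_200_229 (by norm_num) (by omega)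
    (by omega) (H684.relF_200 (by omega) (by omega) C.hW C.hF C.hmin) hd

/-- the even dimensions from 230 to 249 -/
theorem no_230 (C : Ctx V F N (finrank ℝ V)) (hng : ¬ ∃ a : W, a ≠ 0 ∧ ∀ x, ⟪F x, a⟫ = 0)
    (hnear : ∀ ν, FarU V ν F → NearData V F N b j ν) (hev : Even (finrank ℝ V))
    (h1 : 230 ≤ finrank ℝ V) (h2 : finrank ℝ V ≤ 249) : False := by
  have hd := hnear ((59 / 10000 : ℚ) : ℝ)
    (H444.far_200_le (by push_cast; norm_num) (by omega) C.hW C.hF C.hmin hng)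
  rcases le_or_gt (finrank ℝ V) 239 with h | h
  · exact no_KC C hev H179.E230.ents_m H179.E230.ents_ok 250 H684.okC_200_250 (by norm_num) (by omega)
      (by omega) (H684.relF_230 (by omega) (by omega) C.hW C.hF C.hmin) hd
  exact no_KC C hev H179.E240.ents_m H179.E240.ents_ok 250 H684.okC_200_250 (by norm_num) (by omega)
    (by omega) (H684.relF_230 (by omega) (by omega) C.hW C.hF C.hmin) hd

/-- the even dimensions from 250 to 299 -/
theorem no_250 (C : Ctx V F N (finrank ℝ V)) (hng : ¬ ∃ a : W, a ≠ 0 ∧ ∀ x, ⟪F x, a⟫ = 0)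
    (hnear : ∀ ν, FarU V ν F → NearData V F N b j ν) (hev : Even (finrank ℝ V))
    (h1 : 250 ≤ finrank ℝ V) (h2 : finrank ℝ V ≤ 299) : False := by
  have hd := hnear ((27 / 5000 : ℚ) : ℝ)
    (H444.far_250_le (by push_cast; norm_num) (by omega) C.hW C.hF C.hmin hng)
  rcases le_or_gt (finrank ℝ V) 259 with h | h
  · exact no_KC C hev H179.E250.ents_m H179.E250.ents_ok 300 H684.okC_250_300 (by norm_num) (by omega)
      (by omega) (H684.relF_250 (by omega) (by omega) C.hW C.hF C.hmin) hd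
  rcases le_or_gt (finrank ℝ V) 269 with h | h
  · exact no_KC C hev H179.E260.ents_m H179.E260.ents_ok 300 H684.okC_250_300 (by norm_num) (by omega)
      (by omega) (H684.relF_250 (by omega) (by omega) C.hW C.hF C.hmin) hd
  rcases le_or_gt (finrank ℝ V) 279 with h | h
  · exact no_KC C hev H179.E270.ents_m H179.E270.ents_ok 300 H684.okC_250_300 (by norm_num) (by omega)
      (by omega) (H684.relF_250 (by omega) (by omega) C.hW C.hF C.hmin) hd
  rcases le_or_gt (finrank ℝ V) 289 with h | h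
  · exact no_KC C hev H179.E280.ents_m H179.E280.ents_ok 300 H684.okC_250_300 (by norm_num) (by omega)
      (by omega) (H684.relF_250 (by omega) (by omega) C.hW C.hF C.hmin) hd
  exact no_KC C hev H179.E290.ents_m H179.E290.ents_ok 300 H684.okC_250_300 (by norm_num) (by omega)
    (by omega) (H684.relF_250 (by omega) (by omega) C.hW C.hF C.hmin) hd

/-- the even dimensions from 300 to 349 -/
theorem no_300 (C : Ctx V F N (finrank ℝ V)) (hng : ¬ ∃ a : W, a ≠ 0 ∧ ∀ x, ⟪F x, a⟫ = 0)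
    (hnear : ∀ ν, FarU V ν F → NearData V F N b j ν) (hev : Even (finrank ℝ V))
    (h1 : 300 ≤ finrank ℝ V) (h2 : finrank ℝ V ≤ 349) : False := by
  have hd := hnear ((91 / 20000 : ℚ) : ℝ)
    (H444.far_300_le (by push_cast; norm_num) (by omega) C.hW C.hF C.hmin hng)
  rcases le_or_gt (finrank ℝ V) 309 with h | h
  · exact no_KC C hev H179.E300.ents_m H179.E300.ents_ok 350 H684.okC_300_350 (by norm_num) (by omega)
      (by omega) (H684.relF_300 (by omega) (by omega) C.hW C.hF C.hmin) hd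
  rcases le_or_gt (finrank ℝ V) 319 with h | h
  · exact no_KC C hev H179.E310.ents_m H179.E310.ents_ok 350 H684.okC_300_350 (by norm_num) (by omega)
      (by omega) (H684.relF_300 (by omega) (by omega) C.hW C.hF C.hmin) hd
  rcases le_or_gt (finrank ℝ V) 329 with h | h
  · exact no_KC C hev H179.E320.ents_m H179.E320.ents_ok 350 H684.okC_300_350 (by norm_num) (by omega)
      (by omega) (H684.relF_300 (by omega) (by omega) C.hW C.hF C.hmin) hd
  rcases le_or_gt (finrank ℝ V) 339 with h | h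
  · exact no_KC C hev H179.E330.ents_m H179.E330.ents_ok 350 H684.okC_300_350 (by norm_num) (by omega)
      (by omega) (H684.relF_300 (by omega) (by omega) C.hW C.hF C.hmin) hd
  exact no_KC C hev H179.E340.ents_m H179.E340.ents_ok 350 H684.okC_300_350 (by norm_num) (by omega)
    (by omega) (H684.relF_300 (by omega) (by omega) C.hW C.hF C.hmin) hd

/-- the even dimensions from 350 to 399 -/
theorem no_350 (C : Ctx V F N (finrank ℝ V)) (hng : ¬ ∃ a : W, a ≠ 0 ∧ ∀ x, ⟪F x, a⟫ = 0)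
    (hnear : ∀ ν, FarU V ν F → NearData V F N b j ν) (hev : Even (finrank ℝ V))
    (h1 : 350 ≤ finrank ℝ V) (h2 : finrank ℝ V ≤ 399) : False := by
  have hd := hnear ((91 / 20000 : ℚ) : ℝ)
    (H444.far_300_le (by push_cast; norm_num) (by omega) C.hW C.hF C.hmin hng)
  rcases le_or_gt (finrank ℝ V) 359 with h | h
  · exact no_KC C hev H864.E350.ents_m H864.E350.ents_ok 400 ab_350_399 (by norm_num) (by omega)
      (by omega) (H684.relF_350 (by omega) (by omega) C.hW C.hF C.hmin) hd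
  rcases le_or_gt (finrank ℝ V) 369 with h | h
  · exact no_KC C hev H864.E360.ents_m H864.E360.ents_ok 400 ab_350_399 (by norm_num) (by omega)
      (by omega) (H684.relF_350 (by omega) (by omega) C.hW C.hF C.hmin) hd
  rcases le_or_gt (finrank ℝ V) 379 with h | h
  · exact no_KC C hev H864.E370.ents_m H864.E370.ents_ok 400 ab_350_399 (by norm_num) (by omega)
      (by omega) (H684.relF_350 (by omega) (by omega) C.hW C.hF C.hmin) hd
  rcases le_or_gt (finrank ℝ V) 389 with h | h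
  · exact no_KC C hev H864.E380.ents_m H864.E380.ents_ok 400 ab_350_399 (by norm_num) (by omega)
      (by omega) (H684.relF_350 (by omega) (by omega) C.hW C.hF C.hmin) hd
  exact no_KC C hev H864.E390.ents_m H864.E390.ents_ok 400 ab_350_399 (by norm_num) (by omega)
    (by omega) (H684.relF_350 (by omega) (by omega) C.hW C.hF C.hmin) hd

/-- **the even dimensions from 18 to 398** -/
theorem no_even (C : Ctx V F N (finrank ℝ V)) (hng : ¬ ∃ a : W, a ≠ 0 ∧ ∀ x, ⟪F x, a⟫ = 0)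
    (hnear : ∀ ν, FarU V ν F → NearData V F N b j ν) (hev : Even (finrank ℝ V))
    (h2 : finrank ℝ V ≤ 399) : False := by
  have h17 := C.h17
  rcases le_or_gt (finrank ℝ V) 35 with h | h
  · obtain ⟨k, hk⟩ := hev
    exact no_18 C hng hnear (k := k) (by omega) (by omega) (by omega)
  rcases le_or_gt (finrank ℝ V) 40 with h | h
  · exact no_36 C hng hnear hev (by omega) h
  rcases le_or_gt (finrank ℝ V) 59 with h | h
  · exact no_41 C hng hnear hev (by omega) h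
  rcases le_or_gt (finrank ℝ V) 99 with h | h
  · exact no_60 C hng hnear hev (by omega) h
  rcases le_or_gt (finrank ℝ V) 139 with h | h
  · exact no_100 C hng hnear hev (by omega) h
  rcases le_or_gt (finrank ℝ V) 149 with h | h
  · exact no_140 C hng hnear hev (by omega) h
  rcases le_or_gt (finrank ℝ V) 199 with h | h
  · exact no_150 C hng hnear hev (by omega) h
  rcases le_or_gt (finrank ℝ V) 229 with h | h
  · exact no_200 C hng hnear hev (by omega) h
  rcases le_or_gt (finrank ℝ V) 249 with h | h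
  · exact no_230 C hng hnear hev (by omega) h
  rcases le_or_gt (finrank ℝ V) 299 with h | h
  · exact no_250 C hng hnear hev (by omega) h
  rcases le_or_gt (finrank ℝ V) 349 with h | h
  · exact no_300 C hng hnear hev (by omega) h
  exact no_350 C hng hnear hev (by omega) h2

end

end Vale.Agent.N224
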