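import Vale.Agent.N224.Main

/-!
The balanced Clifford product is a minimal embedding of a closed connected manifold.
-/

namespace Vale.Agent.N224

open MeasureTheory Set Filter Function Real Module Metric Vale.Agent.P224 Vale.Agent.P224.FV
  Vale.Agent.P224.RIG
open scoped RealInnerProductSpace Topology ContDiff Manifold ENNReal

set_option linter.unusedSectionVars false

section Min

variable {V W M : Type*} [NormedAddCommGroup V] [InnerProductSpace ℝ V] [FiniteDimensional ℝ V]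
  [NormedAddCommGroup W] [InnerProductSpace ℝ W] [FiniteDimensional ℝ W]
  [TopologicalSpace M] [ChartedSpace V M] [IsManifold 𝓘(ℝ, V) ∞ M]
  [MeasurableSpace W] [BorelSpace W]

lemma sum_proj (K : Submodule ℝ W) :
    ∑ a, ⟪K.starProjection (stdOrthonormalBasis ℝ W a), stdOrthonormalBasis ℝ W a⟫
      = (finrank ℝ K : ℝ) := by
  have h1 := LinearMap.trace_eq_sum_inner (K.starProjection : W →ₗ[ℝ] W) (stdOrthonormalBasis ℝ W)
  have h2 : LinearMap.IsProj K (K.starProjection : W →ₗ[ℝ] W) :=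
    ⟨fun x => Submodule.starProjection_apply_mem K x,
      fun x hx => Submodule.starProjection_eq_self_iff.2 hx⟩
  rw [h2.trace] at h1
  rw [h1]
  exact Finset.sum_congr rfl fun a _ => real_inner_comm _ _

lemma sc_apply (K : Submodule ℝ W) (s t : ℝ) (w : W) :
    sc K s t w = s • K.starProjection w + t • Kᗮ.starProjection w := rfl

lemma inner_sc (K : Submodule ℝ W) (s t s' t' : ℝ) (v w : W) :
    ⟪sc K s t v, sc K s' t' w⟫ = s * s' * ⟪K.starProjection v, K.starProjection w⟫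
      + t * t' * ⟪Kᗮ.starProjection v, Kᗮ.starProjection w⟫ := by
  simp only [sc_apply, inner_add_left, inner_add_right, real_inner_smul_left,
    real_inner_smul_right, inner_proj, inner_proj']
  ring

lemma sc_one (K : Submodule ℝ W) (w : W) : sc K 1 1 w = w := by
  rw [sc_apply, one_smul, one_smul, proj_add]

lemma sc_sc (K : Submodule ℝ W) (s t s' t' : ℝ) (w : W) :
    sc K s t (sc K s' t' w) = sc K (s * s') (t * t') w := by
  simp only [sc_apply, map_add, map_smul, pKK, pKO, pOK, smul_zero, add_zero, zero_add,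
    smul_smul, mul_comm]

/-- an immersion into a minimal product of two spheres is minimal -/
theorem min_of_prd (hW : finrank ℝ W = finrank ℝ V + 2) (K : Submodule ℝ W) {k l : ℕ}
    (hk : finrank ℝ K = k + 1) (hl : finrank ℝ Kᗮ = l + 1) {p r : ℝ} (hp : 0 < p) (hr : 0 < r)
    (hkl : r ^ 2 * k = p ^ 2 * l) {F : M → W} (hF : SphImm V F)
    (hK : ∀ x, ‖K.starProjection (F x)‖ = p ∧ ‖Kᗮ.starProjection (F x)‖ = r)
    (x : M) (n : W) (hn : IsUnitNormal V F x n) : meanCurv V F x n = 0 := by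
  set J : W →L[ℝ] W := sc K (r / p) (-(p / r)) with hJ
  have hpr : p ^ 2 + r ^ 2 = 1 := by
    have h := norm_sq_proj K (F x)
    rw [hF.unit, (hK x).1, (hK x).2] at h
    linarith
  have i1 : ∀ y, ⟪K.starProjection (F y), K.starProjection (F y)⟫ = p ^ 2 := fun y => by
    rw [real_inner_self_eq_norm_sq, (hK y).1]
  have i2 : ∀ y, ⟪Kᗮ.starProjection (F y), Kᗮ.starProjection (F y)⟫ = r ^ 2 := fun y => by
    rw [real_inner_self_eq_norm_sq, (hK y).2]
  have hNs : ContMDiff 𝓘(ℝ, V) 𝓘(ℝ, W) ∞ fun y => J (F y) := J.contMDiff.comp hF.smooth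
  have hd : ∀ (L : Submodule ℝ W) (c : ℝ), (∀ y, ‖L.starProjection (F y)‖ = c) → ∀ y v,
      ⟪L.starProjection (fderiv ℝ (rep (V := V) F y) (chartAt V y y) v),
        L.starProjection (F y)⟫ = 0 := by
    intro L c hc y v
    have h1 := (L.starProjection.hasFDerivAt.comp _
      (rep_diff_self hF.smooth y).hasFDerivAt).norm_sq
    have e : (fun u => ‖(L.starProjection ∘ rep (V := V) F y) u‖ ^ 2) = fun _ => c ^ 2 := by
      funext u
      exact congrArg (· ^ 2) (hc _)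
    rw [e] at h1
    have h2 := congrArg (fun A : V →L[ℝ] ℝ => A v) (h1.unique (hasFDerivAt_const _ _))
    have h3 : rep (V := V) F y (chartAt V y y) = F y := rep_self F y
    simp only [Function.comp_apply, h3, smul_apply,
      ContinuousLinearMap.comp_apply, innerSL_apply_apply, zero_apply,
      nsmul_eq_mul] at h2
    rw [real_inner_comm]
    simpa using h2
  have hN : ∀ y, IsUnitNormal V F y (J (F y)) := by
    intro y
    refine ⟨?_, ?_, fun i => ?_⟩
    · have h : ‖J (F y)‖ ^ 2 = 1 := by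
        rw [← real_inner_self_eq_norm_sq, hJ, inner_sc, i1, i2, ← hpr]
        field_simp
        ring
      exact (sq_eq_sq₀ (norm_nonneg _) zero_le_one).1 (by rw [h, one_pow])
    · rw [← sc_one K (F y), hJ, sc_sc, inner_sc, i1, i2]
      field_simp
      ring
    · unfold pd
      rw [← sc_one K (fderiv ℝ (rep (V := V) F y) (chartAt V y y) _), hJ, inner_sc,
        hd K p (fun z => (hK z).1), hd Kᗮ r (fun z => (hK z).2)]
      ring
  have htr := (trace_A hW hF hNs hN x).1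
  have hdl : ∀ a, FV.dl V F a (fun y => J (F y)) x = J (FV.dl V F a F x) := by
    intro a
    unfold FV.dl
    have h1 := (J.hasFDerivAt.comp _ (rep_diff_self hF.smooth x).hasFDerivAt).fderiv
    have e : rep (V := V) (fun y => J (F y)) x = J ∘ rep (V := V) F x := rfl
    rw [e, h1]
    rfl
  have hJs : ∀ v w, ⟪J v, w⟫ = ⟪v, J w⟫ := by
    intro v w
    conv_lhs => rw [← sc_one K w]
    conv_rhs => rw [← sc_one K v]
    rw [hJ, inner_sc, inner_sc]
    ring
  set e := stdOrthonormalBasis ℝ W with he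
  have s1 : ∑ a, ⟪J (e a), e a⟫ = r / p * (k + 1) - p / r * (l + 1) := by
    have h1 := sum_proj K
    have h2 := sum_proj Kᗮ
    rw [hk] at h1
    rw [hl] at h2
    push_cast at h1 h2
    rw [← h1, ← h2, Finset.mul_sum, Finset.mul_sum, ← Finset.sum_sub_distrib]
    refine Finset.sum_congr rfl fun a _ => ?_
    rw [hJ, sc_apply, inner_add_left, real_inner_smul_left, real_inner_smul_left]
    ring
  have s2 : ∀ w : W, ∑ a, ⟪e a, w⟫ * ⟪J w, e a⟫ = ⟪J w, w⟫ := by
    intro w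
    rw [← e.sum_inner_mul_inner (J w) w]
    exact Finset.sum_congr rfl fun a _ => mul_comm _ _
  have s3 : ⟪J (F x), F x⟫ = 0 := by
    rw [real_inner_comm]
    exact (hN x).2.1
  have s4 : ⟪J (J (F x)), J (F x)⟫ = r / p - p / r := by
    rw [hJ, sc_sc, inner_sc, i1, i2]
    have h1 : r / p - p / r = (r / p - p / r) * (p ^ 2 + r ^ 2) := by rw [hpr, mul_one]
    rw [h1]
    field_simp
    ring
  have h0 : meanCurv V F x (J (F x)) = 0 := by
    have h1 : ∑ a, ⟪FV.dl V F (e a) (fun y => J (F y)) x, e a⟫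
        = ∑ a, ⟪J (e a), e a⟫ - ∑ a, ⟪e a, F x⟫ * ⟪J (F x), e a⟫
          - ∑ a, ⟪e a, J (F x)⟫ * ⟪J (J (F x)), e a⟫ := by
      rw [← Finset.sum_sub_distrib, ← Finset.sum_sub_distrib]
      refine Finset.sum_congr rfl fun a _ => ?_
      rw [hdl, dl_F hW hF hN, map_sub, map_sub, map_smul, map_smul, inner_sub_left, inner_sub_left,
        real_inner_smul_left, real_inner_smul_left]
    rw [h1, s1, s2, s2, s3, s4] at htr
    have h2 : r / p * (k + 1) - p / r * (l + 1) - 0 - (r / p - p / r) = 0 := by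
      field_simp
      linarith
    rw [h2] at htr
    linarith
  rcases Sym.normal_pm hW hF hn (hN x) with h | h
  · rw [h, h0]
  · have h1 : meanCurv V F x (-J (F x)) = -meanCurv V F x (J (F x)) := by
      unfold meanCurv shapeMat
      rw [← Matrix.trace_neg, ← Matrix.mul_neg]
      congr 2
      ext i j
      simp only [Matrix.of_apply, Matrix.neg_apply, inner_neg_right]
    rw [h, h1, h0, neg_zero]

/-- the range of an immersion into a great sphere is relatively open -/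
lemma open_eq (hW : finrank ℝ W = finrank ℝ V + 2) {F : M → W} (hF : SphImm V F) {a : W}
    (ha : a ≠ 0) (hK : ∀ x, ⟪F x, a⟫ = 0) (x : M) :
    ∃ U : Set W, IsOpen U ∧ F x ∈ U ∧ ∀ z ∈ U, ‖z‖ = 1 → ⟪z, a⟫ = 0 → z ∈ range F := by
  set f : V → W := rep F x with hf
  set v0 := chartAt V x x with hv0
  have hT := immV_rep hF x
  have hmem : v0 ∈ (chartAt V x).target := (chartAt V x).map_source (mem_chart_source V x)
  have hfv : f v0 = F x := rep_self F x
  have hc : ContDiffAt ℝ ∞ f v0 := hT.smooth.contDiffAt (hT.isOpen.mem_nhds hmem)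
  have hs : HasStrictFDerivAt f (fderiv ℝ f v0) v0 := hc.hasStrictFDerivAt (by simp)
  set D := fderiv ℝ f v0 with hD
  have haa : 0 < ⟪a, a⟫ := real_inner_self_pos.2 ha
  have h0 : HasStrictFDerivAt (fun p : V × ℝ × ℝ => f p.1)
      (D ∘L ContinuousLinearMap.fst ℝ V (ℝ × ℝ)) (v0, 1, 0) :=
    HasStrictFDerivAt.comp (v0, (1 : ℝ), (0 : ℝ)) (g := f) (f := Prod.fst) hs
      hasStrictFDerivAt_fst
  have h1 : HasStrictFDerivAt (fun p : V × ℝ × ℝ => p.2.1)
      (ContinuousLinearMap.fst ℝ ℝ ℝ ∘L ContinuousLinearMap.snd ℝ V (ℝ × ℝ)) (v0, 1, 0) :=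
    (ContinuousLinearMap.fst ℝ ℝ ℝ ∘L ContinuousLinearMap.snd ℝ V (ℝ × ℝ)).hasStrictFDerivAt
  have h2 : HasStrictFDerivAt (fun p : V × ℝ × ℝ => p.2.2)
      (ContinuousLinearMap.snd ℝ ℝ ℝ ∘L ContinuousLinearMap.snd ℝ V (ℝ × ℝ)) (v0, 1, 0) :=
    (ContinuousLinearMap.snd ℝ ℝ ℝ ∘L ContinuousLinearMap.snd ℝ V (ℝ × ℝ)).hasStrictFDerivAt
  have hg := (h1.smul h0).add (h2.smul_const a)
  have d1 : ∀ w, ⟪D w, F x⟫ = 0 := fun w => by
    rw [← hfv]
    exact inner_deriv hs.hasFDerivAt (ContinuousLinearMap.id ℝ W) (c := 1 ^ 2)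
      (fun u => congrArg (· ^ 2) (hF.unit _)) w
  have d2 : ∀ w, ⟪D w, a⟫ = 0 := fun w => by
    have k1 := (innerSL ℝ a).hasFDerivAt.comp v0 hs.hasFDerivAt
    have e : (innerSL ℝ a) ∘ f = fun _ => (0 : ℝ) := funext fun u => by
      rw [Function.comp_apply, innerSL_apply_apply, real_inner_comm]
      exact hK _
    rw [e] at k1
    rw [real_inner_comm]
    exact congrArg (fun L : V →L[ℝ] ℝ => L w) (k1.unique (hasFDerivAt_const _ _))
  have hFF : ⟪F x, F x⟫ = 1 := by rw [real_inner_self_eq_norm_sq, hF.unit, one_pow]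
  have haF : ⟪a, F x⟫ = 0 := by
    rw [real_inner_comm]
    exact hK x
  have hmap := hg.map_nhds_eq_of_surj (by
    have hdim : finrank ℝ (V × ℝ × ℝ) = finrank ℝ W := by
      rw [finrank_prod, finrank_prod, finrank_self, hW]
    refine LinearMap.range_eq_top.2
      ((LinearMap.injective_iff_surjective_of_finrank_eq_finrank hdim).1 ?_)
    refine (injective_iff_map_eq_zero _).2 ?_
    rintro ⟨w, α, β⟩ h3
    have h4 : (1 : ℝ) • D w + α • f v0 + β • a = 0 := h3
    rw [hfv, one_smul] at h4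
    have h5 := congrArg (fun z => ⟪z, F x⟫) h4
    have h6 := congrArg (fun z => ⟪z, a⟫) h4
    simp only [inner_add_left, real_inner_smul_left, d1, d2, hFF, haF, hK, inner_zero_left,
      mul_zero, add_zero, zero_add, mul_one] at h5 h6
    have h7 : β = 0 := (mul_eq_zero.1 h6).resolve_right haa.ne'
    subst h5 h7
    rw [zero_smul, zero_smul, add_zero, add_zero] at h4
    rw [hT.inj v0 hmem (h4.trans (map_zero _).symm)]
    rfl)
  have hS : {p : V × ℝ × ℝ | 0 < p.2.1} ∈ 𝓝 (v0, (1 : ℝ), (0 : ℝ)) :=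
    (isOpen_lt continuous_const (by fun_prop)).mem_nhds (one_pos : (0 : ℝ) < 1)
  have hI := image_mem_map (m := fun p : V × ℝ × ℝ => p.2.1 • f p.1 + p.2.2 • a) hS
  have hmap' : map (fun p : V × ℝ × ℝ => p.2.1 • f p.1 + p.2.2 • a) (𝓝 (v0, (1 : ℝ), (0 : ℝ)))
      = 𝓝 ((1 : ℝ) • f v0 + (0 : ℝ) • a) := hmap
  rw [hmap', one_smul, zero_smul, add_zero, hfv] at hI
  obtain ⟨U, hUs, hUo, hxU⟩ := _root_.mem_nhds_iff.1 hI
  refine ⟨U, hUo, hxU, fun z hz hz1 hz2 => ?_⟩
  obtain ⟨⟨v, s, t⟩, hs0, rfl⟩ := hUs hz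
  have hs1 : 0 < s := hs0
  have k1 : ⟪f v, a⟫ = 0 := hK _
  have k2 : ‖f v‖ = 1 := hF.unit _
  simp only [inner_add_left, real_inner_smul_left, k1, mul_zero, zero_add] at hz2
  have ht : t = 0 := (mul_eq_zero.1 hz2).resolve_right haa.ne'
  subst ht
  simp only [zero_smul, add_zero, norm_smul, k2, mul_one, Real.norm_eq_abs, abs_of_pos hs1] at hz1
  subst hz1
  exact ⟨(chartAt V x).symm v, by simp only [one_smul, zero_smul, add_zero]; rfl⟩

/-- a closed hypersurface contained in a great sphere is the great sphere -/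
theorem range_eq_equator [CompactSpace M] [Nonempty M] (hm : 1 ≤ finrank ℝ V)
    (hW : finrank ℝ W = finrank ℝ V + 2) {F : M → W} (hF : SphImm V F) {a : W} (ha : a ≠ 0)
    (hK : ∀ x, ⟪F x, a⟫ = 0) : range F = {z | ‖z‖ = 1 ∧ ⟪z, a⟫ = 0} := by
  refine Subset.antisymm (by rintro _ ⟨x, rfl⟩; exact ⟨hF.unit x, hK x⟩) ?_
  choose U hUo hxU hU using open_eq hW hF ha hK
  have hcl : IsClosed (range F) := (isCompact_range hF.smooth.continuous).isClosed
  have hpre : IsPreconnected {z : W | ‖z‖ = 1 ∧ ⟪z, a⟫ = 0} := by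
    have hd : finrank ℝ (ℝ ∙ a)ᗮ = finrank ℝ V + 1 := by
      have h1 := Submodule.finrank_add_finrank_orthogonal (ℝ ∙ a)
      rw [finrank_span_singleton ha] at h1
      omega
    have c1 := (isPreconnected_sphere (E := (ℝ ∙ a)ᗮ) (by
      rw [← finrank_eq_rank, hd]
      exact_mod_cast (by omega : 1 < finrank ℝ V + 1)) 0 1).image _
        continuous_subtype_val.continuousOn
    convert c1 using 1
    ext z
    constructor
    · rintro ⟨h1, h2⟩
      exact ⟨⟨z, Submodule.mem_orthogonal_singleton_iff_inner_left.2 h2⟩,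
        mem_sphere_zero_iff_norm.2 h1, rfl⟩
    · rintro ⟨y, hy, rfl⟩
      exact ⟨mem_sphere_zero_iff_norm.1 hy,
        Submodule.mem_orthogonal_singleton_iff_inner_left.1 y.2⟩
  by_contra hcon
  rw [not_subset] at hcon
  obtain ⟨z, hz, hzn⟩ := hcon
  obtain ⟨x₀⟩ := ‹Nonempty M›
  have h3 := hpre (⋃ x, U x) (range F)ᶜ (isOpen_iUnion hUo) hcl.isOpen_compl ?_
    ⟨F x₀, ⟨hF.unit x₀, hK x₀⟩, mem_iUnion.2 ⟨x₀, hxU x₀⟩⟩ ⟨z, hz, hzn⟩
  · obtain ⟨w, hw, hw1, hw2⟩ := h3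
    obtain ⟨x, hx⟩ := mem_iUnion.1 hw1
    exact hw2 (hU x w hx hw.1 hw.2)
  · intro w hw
    by_cases h : w ∈ range F
    · obtain ⟨x, rfl⟩ := h
      exact Or.inl (mem_iUnion.2 ⟨x, hxU x⟩)
    · exact Or.inr h

end Min

section Prd

variable {E₁ E₂ V M₁ M₂ : Type*} [NormedAddCommGroup E₁] [NormedSpace ℝ E₁]
  [NormedAddCommGroup E₂] [NormedSpace ℝ E₂] [NormedAddCommGroup V] [NormedSpace ℝ V]
  [TopologicalSpace M₁] [ChartedSpace E₁ M₁] [TopologicalSpace M₂] [ChartedSpace E₂ M₂]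

/-- the product chart followed by a linear isomorphism -/
noncomputable def pch (e : (E₁ × E₂) ≃L[ℝ] V) (x : M₁ × M₂) : OpenPartialHomeomorph (M₁ × M₂) V :=
  ((chartAt E₁ x.1).prod (chartAt E₂ x.2)).transHomeomorph e.toHomeomorph

/-- the product of two manifolds, modelled on `V` -/
@[reducible] noncomputable def pcs (M₁ M₂ : Type*) [TopologicalSpace M₁] [ChartedSpace E₁ M₁]
    [TopologicalSpace M₂] [ChartedSpace E₂ M₂] (e : (E₁ × E₂) ≃L[ℝ] V) :
    ChartedSpace V (M₁ × M₂) where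
  atlas := range (pch e)
  chartAt := pch e
  mem_chart_source _ := ⟨mem_chart_source _ _, mem_chart_source _ _⟩
  chart_mem_atlas x := mem_range_self x

lemma pch_symm (e : (E₁ × E₂) ≃L[ℝ] V) (x : M₁ × M₂) (u : V) :
    (pch e x).symm u
      = ((chartAt E₁ x.1).symm (e.symm u).1, (chartAt E₂ x.2).symm (e.symm u).2) := rfl

lemma pch_apply (e : (E₁ × E₂) ≃L[ℝ] V) (x y : M₁ × M₂) :
    pch e x y = e (chartAt E₁ x.1 y.1, chartAt E₂ x.2 y.2) := rfl

lemma trans_smooth {E M : Type*} [NormedAddCommGroup E] [NormedSpace ℝ E] [TopologicalSpace M]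
    [ChartedSpace E M] [IsManifold 𝓘(ℝ, E) ∞ M] (x y : M) {u : E} (hu : u ∈ (chartAt E x).target)
    (hv : (chartAt E x).symm u ∈ (chartAt E y).source) :
    ContDiffAt ℝ ∞ (fun v => chartAt E y ((chartAt E x).symm v)) u := by
  rw [← contMDiffAt_iff_contDiffAt]
  have h1 : ContMDiffAt 𝓘(ℝ, E) 𝓘(ℝ, E) ∞ (chartAt E x).symm u :=
    (contMDiffOn_chart_symm u hu).contMDiffAt ((chartAt E x).open_target.mem_nhds hu)
  have h2 : ContMDiffAt 𝓘(ℝ, E) 𝓘(ℝ, E) ∞ (chartAt E y) ((chartAt E x).symm u) :=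
    (contMDiffOn_chart _ hv).contMDiffAt ((chartAt E y).open_source.mem_nhds hv)
  exact h2.comp u h1

theorem pcs_manifold [IsManifold 𝓘(ℝ, E₁) ∞ M₁] [IsManifold 𝓘(ℝ, E₂) ∞ M₂]
    (e : (E₁ × E₂) ≃L[ℝ] V) :
    letI := pcs M₁ M₂ e
    IsManifold 𝓘(ℝ, V) ∞ (M₁ × M₂) := by
  let _ := pcs M₁ M₂ e
  refine isManifold_of_contDiffOn _ _ _ ?_
  rintro _ _ ⟨x, rfl⟩ ⟨y, rfl⟩ u ⟨hu, -⟩
  refine ContDiffAt.contDiffWithinAt ?_
  obtain ⟨⟨h1, h2⟩, h3, h4⟩ := hu
  have a1 : ContDiffAt ℝ ∞ (fun v : V => (e.symm v).1) u := contDiffAt_fst.comp u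
    e.symm.contDiff.contDiffAt
  have a2 : ContDiffAt ℝ ∞ (fun v : V => (e.symm v).2) u := contDiffAt_snd.comp u
    e.symm.contDiff.contDiffAt
  have b1 := (trans_smooth x.1 y.1 h1 h3).comp u a1
  have b2 := (trans_smooth x.2 y.2 h2 h4).comp u a2
  exact e.contDiff.contDiffAt.comp u (b1.prodMk b2)

/-- the differential as a map between vector spaces -/
noncomputable def md (E : Type*) {M X : Type*} [NormedAddCommGroup E] [NormedSpace ℝ E]
    [TopologicalSpace M] [ChartedSpace E M] [NormedAddCommGroup X] [NormedSpace ℝ X] (f : M → X)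
    (x : M) : E →L[ℝ] X := mfderiv 𝓘(ℝ, E) 𝓘(ℝ, X) f x

/-- a smooth map read in a chart -/
lemma loc_imm {E M X : Type*} [NormedAddCommGroup E] [NormedSpace ℝ E] [TopologicalSpace M]
    [ChartedSpace E M] [NormedAddCommGroup X] [NormedSpace ℝ X] {f : M → X}
    (hf : ContMDiff 𝓘(ℝ, E) 𝓘(ℝ, X) ∞ f) (x : M) :
    ContDiffAt ℝ ∞ (fun v => f ((chartAt E x).symm v)) (chartAt E x x) ∧
      md E f x = fderiv ℝ (fun v => f ((chartAt E x).symm v)) (chartAt E x x) := by
  constructor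
  · have h := (contMDiffAt_iff.1 (hf x)).2
    simpa [contDiffWithinAt_univ, Function.comp_def, chartAt_self_eq] using h
  · have h : MDifferentiableAt 𝓘(ℝ, E) 𝓘(ℝ, X) f x := (hf.mdifferentiable (by norm_num)) x
    unfold md
    rw [h.mfderiv]
    simp only [writtenInExtChartAt, Function.comp_def, mfld_simps, fderivWithin_univ]
    rfl

/-- the sum of two immersions into complementary directions -/
theorem sum_imm {X : Type*} [NormedAddCommGroup X] [NormedSpace ℝ X] (e : (E₁ × E₂) ≃L[ℝ] V)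
    {f₁ : M₁ → X} {f₂ : M₂ → X} (h₁ : ContMDiff 𝓘(ℝ, E₁) 𝓘(ℝ, X) ∞ f₁)
    (h₂ : ContMDiff 𝓘(ℝ, E₂) 𝓘(ℝ, X) ∞ f₂)
    (hi : ∀ (x : M₁) (y : M₂) (v : E₁) (w : E₂),
      md E₁ f₁ x v + md E₂ f₂ y w = 0 → v = 0 ∧ w = 0) :
    letI := pcs M₁ M₂ e
    ContMDiff 𝓘(ℝ, V) 𝓘(ℝ, X) ∞ (fun x : M₁ × M₂ => f₁ x.1 + f₂ x.2) ∧
      ∀ x, Injective (md V (fun x : M₁ × M₂ => f₁ x.1 + f₂ x.2) x) := by
  let _ := pcs M₁ M₂ e
  have e1 : ∀ x : M₁ × M₂, (e.symm (pch e x x)).1 = chartAt E₁ x.1 x.1 := fun x => by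
    rw [pch_apply, e.symm_apply_apply]
  have e2 : ∀ x : M₁ × M₂, (e.symm (pch e x x)).2 = chartAt E₂ x.2 x.2 := fun x => by
    rw [pch_apply, e.symm_apply_apply]
  have a1 : ∀ u, HasFDerivAt (fun v : V => (e.symm v).1)
      ((ContinuousLinearMap.fst ℝ E₁ E₂).comp (e.symm : V →L[ℝ] E₁ × E₂)) u := fun u =>
    ((ContinuousLinearMap.fst ℝ E₁ E₂).comp (e.symm : V →L[ℝ] E₁ × E₂)).hasFDerivAt
  have a2 : ∀ u, HasFDerivAt (fun v : V => (e.symm v).2)
      ((ContinuousLinearMap.snd ℝ E₁ E₂).comp (e.symm : V →L[ℝ] E₁ × E₂)) u := fun u =>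
    ((ContinuousLinearMap.snd ℝ E₁ E₂).comp (e.symm : V →L[ℝ] E₁ × E₂)).hasFDerivAt
  have hs : ContMDiff 𝓘(ℝ, V) 𝓘(ℝ, X) ∞ (fun x : M₁ × M₂ => f₁ x.1 + f₂ x.2) := by
    intro x
    have c1 := h₁.continuous
    have c2 := h₂.continuous
    refine contMDiffAt_iff.2 ⟨by fun_prop, ?_⟩
    have b1 := (loc_imm h₁ x.1).1
    have b2 := (loc_imm h₂ x.2).1
    rw [← e1] at b1
    rw [← e2] at b2
    have d1 := b1.comp (pch e x x) (contDiffAt_fst.comp _ e.symm.contDiff.contDiffAt)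
    have d2 := b2.comp (pch e x x) (contDiffAt_snd.comp _ e.symm.contDiff.contDiffAt)
    exact (d1.add d2).contDiffWithinAt
  refine ⟨hs, fun x => ?_⟩
  rw [(loc_imm hs x).2]
  have b1 := ((loc_imm h₁ x.1).1.differentiableAt (by norm_num)).hasFDerivAt
  have b2 := ((loc_imm h₂ x.2).1.differentiableAt (by norm_num)).hasFDerivAt
  rw [← (loc_imm h₁ x.1).2, ← e1] at b1
  rw [← (loc_imm h₂ x.2).2, ← e2] at b2
  have d := ((b1.comp (pch e x x) (a1 (pch e x x))).add
    (b2.comp (pch e x x) (a2 (pch e x x)))).fderiv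
  have d' : fderiv ℝ (fun v => (fun x : M₁ × M₂ => f₁ x.1 + f₂ x.2) ((chartAt V x).symm v))
      (chartAt V x x) = _ := d
  rw [d']
  refine (injective_iff_map_eq_zero _).2 fun v hv => ?_
  obtain ⟨k1, k2⟩ := hi x.1 x.2 (e.symm v).1 (e.symm v).2 hv
  have k3 : e.symm v = 0 := Prod.ext k1 k2
  exact e.symm.injective (k3.trans (map_zero _).symm)

end Prd

section Ex

universe v

variable {V : Type*} {W : Type v} [NormedAddCommGroup V] [InnerProductSpace ℝ V]
  [FiniteDimensional ℝ V] [NormedAddCommGroup W] [InnerProductSpace ℝ W] [FiniteDimensional ℝ W]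
  [MeasurableSpace V] [BorelSpace V] [MeasurableSpace W] [BorelSpace W]

/-- a round sphere in a subspace -/
lemma sph_imm (K : Submodule ℝ W) {k : ℕ} [Fact (finrank ℝ K = k + 1)] {p : ℝ} (hp : p ≠ 0) :
    ContMDiff (𝓡 k) 𝓘(ℝ, W) ∞ (fun x : sphere (0 : K) 1 => p • ((x : K) : W)) ∧
      ∀ (x : sphere (0 : K) 1) (v : EuclideanSpace ℝ (Fin k)),
        md _ (fun x : sphere (0 : K) 1 => p • ((x : K) : W)) x v ∈ K ∧
        (md _ (fun x : sphere (0 : K) 1 => p • ((x : K) : W)) x v = 0 → v = 0) := by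
  set A : K →L[ℝ] W := p • K.subtypeL with hA
  have h0 : ContMDiff (𝓡 k) 𝓘(ℝ, K) ∞ ((↑) : sphere (0 : K) 1 → K) := contMDiff_coe_sphere
  refine ⟨A.contMDiff.comp h0, fun x v => ?_⟩
  have h1 := mfderiv_comp (I := 𝓡 k) (I' := 𝓘(ℝ, K)) (I'' := 𝓘(ℝ, W)) x A.mdifferentiableAt
    ((h0.mdifferentiable (by norm_num)) x)
  rw [A.mfderiv_eq] at h1
  have h2 : md _ (fun x : sphere (0 : K) 1 => p • ((x : K) : W)) x v
      = p • ((md _ ((↑) : sphere (0 : K) 1 → K) x v : K) : W) :=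
    congrArg (fun L => L v) h1
  rw [h2]
  refine ⟨K.smul_mem _ (Submodule.coe_mem _), fun h => ?_⟩
  have h3 := Submodule.coe_eq_zero.1 ((smul_eq_zero.1 h).resolve_left hp)
  exact mfderiv_coe_sphere_injective x (h3.trans (map_zero _).symm)

/-- **The least Clifford volume is attained.** -/
theorem attained (hV : 2 ≤ finrank ℝ V) (hW : finrank ℝ W = finrank ℝ V + 2) :
    ∃ (M : Type v) (_ : TopologicalSpace M) (_ : T2Space M) (_ : CompactSpace M)
      (_ : ConnectedSpace M) (_ : ChartedSpace V M) (_ : IsManifold 𝓘(ℝ, V) ∞ M)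
      (_ : MeasurableSpace M) (_ : BorelSpace M) (F : M → W),
      SphImm V F ∧ (∀ x n, IsUnitNormal V F x n → meanCurv V F x n = 0) ∧
      (¬ ∃ a : W, a ≠ 0 ∧ ∀ x, ⟪F x, a⟫ = 0) ∧
      volM V F univ = ENNReal.ofReal (leastClifford (finrank ℝ V)) := by
  obtain ⟨m, hm⟩ : ∃ m, finrank ℝ V = m := ⟨_, rfl⟩
  obtain ⟨k, hkd⟩ : ∃ k, k = m / 2 := ⟨_, rfl⟩
  obtain ⟨l, hld⟩ : ∃ l, l = m - m / 2 := ⟨_, rfl⟩
  have hk1 : 1 ≤ k := by omega
  have hl1 : 1 ≤ l := by omega
  obtain ⟨K, hk⟩ : ∃ K : Submodule ℝ W, finrank ℝ K = k + 1 := by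
    obtain ⟨f, hf⟩ := exists_linearIndependent_of_le_finrank (R := ℝ) (M := W) (n := k + 1)
      (by omega)
    exact ⟨_, (finrank_span_eq_card hf).trans (Fintype.card_fin _)⟩
  have hl : finrank ℝ Kᗮ = l + 1 := by
    have := Submodule.finrank_add_finrank_orthogonal K
    omega
  have f1 : Fact (finrank ℝ K = k + 1) := ⟨hk⟩
  have f2 : Fact (finrank ℝ Kᗮ = l + 1) := ⟨hl⟩
  have hmR : (0 : ℝ) < m := by exact_mod_cast (by omega : 0 < m)
  have hkR : (0 : ℝ) < k := by exact_mod_cast hk1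
  have hlR : (0 : ℝ) < l := by exact_mod_cast hl1
  have hklR : (k : ℝ) + l = m := by exact_mod_cast (by omega : k + l = m)
  obtain ⟨p, hp, hp2⟩ : ∃ p : ℝ, 0 < p ∧ p ^ 2 = k / m :=
    ⟨_, Real.sqrt_pos.2 (div_pos hkR hmR), Real.sq_sqrt (div_pos hkR hmR).le⟩
  obtain ⟨r, hr, hr2⟩ : ∃ r : ℝ, 0 < r ∧ r ^ 2 = l / m :=
    ⟨_, Real.sqrt_pos.2 (div_pos hlR hmR), Real.sq_sqrt (div_pos hlR hmR).le⟩
  obtain ⟨e⟩ : Nonempty ((EuclideanSpace ℝ (Fin k) × EuclideanSpace ℝ (Fin l)) ≃L[ℝ] V) :=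
    FiniteDimensional.nonempty_continuousLinearEquiv_of_finrank_eq (by
      rw [finrank_prod, finrank_euclideanSpace_fin, finrank_euclideanSpace_fin]
      omega)
  have c1 : ConnectedSpace (sphere (0 : K) 1) := isConnected_iff_connectedSpace.1
    (isConnected_sphere (by
      rw [← finrank_eq_rank, hk]
      exact_mod_cast (by omega : 1 < k + 1)) 0 zero_le_one)
  have c2 : ConnectedSpace (sphere (0 : Kᗮ) 1) := isConnected_iff_connectedSpace.1
    (isConnected_sphere (by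
      rw [← finrank_eq_rank, hl]
      exact_mod_cast (by omega : 1 < l + 1)) 0 zero_le_one)
  let cs := pcs (sphere (0 : K) 1) (sphere (0 : Kᗮ) 1) e
  have mf : IsManifold 𝓘(ℝ, V) ∞ (sphere (0 : K) 1 × sphere (0 : Kᗮ) 1) := pcs_manifold e
  let ms : MeasurableSpace (sphere (0 : K) 1 × sphere (0 : Kᗮ) 1) := borel _
  have bs : BorelSpace (sphere (0 : K) 1 × sphere (0 : Kᗮ) 1) := ⟨rfl⟩
  obtain ⟨s1, t1⟩ := sph_imm K (k := k) hp.ne'
  obtain ⟨s2, t2⟩ := sph_imm Kᗮ (k := l) hr.ne'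
  obtain ⟨hs, hi⟩ := sum_imm e s1 s2 fun x y v w h => by
    have h1 := (t1 x v).1
    have h2 := (t2 y w).1
    have h3 := eq_neg_of_add_eq_zero_left h
    have h4 := (Submodule.disjoint_def.1 K.orthogonal_disjoint) _ h1 (h3 ▸ Kᗮ.neg_mem h2)
    rw [h4, zero_add] at h
    exact ⟨(t1 x v).2 h4, (t2 y w).2 h⟩
  set F : sphere (0 : K) 1 × sphere (0 : Kᗮ) 1 → W :=
    fun x => p • ((x.1 : K) : W) + r • ((x.2 : Kᗮ) : W) with hFd
  have p1 : ∀ x, K.starProjection (F x) = p • ((x.1 : K) : W) := fun x => by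
    rw [hFd, map_add, map_smul, map_smul,
      Submodule.starProjection_eq_self_iff.2 (Submodule.coe_mem _),
      (Submodule.starProjection_apply_eq_zero_iff _).2 (Submodule.coe_mem _), smul_zero, add_zero]
  have p2 : ∀ x, Kᗮ.starProjection (F x) = r • ((x.2 : Kᗮ) : W) := fun x => by
    have h := proj_add K (F x)
    rw [p1] at h
    exact add_left_cancel h
  have n1 : ∀ x : sphere (0 : K) 1, ‖((x : K) : W)‖ = 1 := fun x => norm_eq_of_mem_sphere x
  have n2 : ∀ x : sphere (0 : Kᗮ) 1, ‖((x : Kᗮ) : W)‖ = 1 := fun x => norm_eq_of_mem_sphere x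
  have hK : ∀ x, ‖K.starProjection (F x)‖ = p ∧ ‖Kᗮ.starProjection (F x)‖ = r := fun x => by
    rw [p1, p2, norm_smul, norm_smul, n1, n2, Real.norm_eq_abs, Real.norm_eq_abs, abs_of_pos hp,
      abs_of_pos hr, mul_one, mul_one]
    exact ⟨rfl, rfl⟩
  have hF : SphImm V F := by
    refine ⟨hs, fun x => ?_, hi⟩
    have h := norm_sq_proj K (F x)
    rw [(hK x).1, (hK x).2, hp2, hr2, ← add_div, hklR, div_self hmR.ne'] at h
    exact (sq_eq_sq₀ (norm_nonneg _) zero_le_one).1 (by rw [h, one_pow])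
  have hinj : Injective F := by
    intro x y h
    have h1 := (p1 x).symm.trans ((congrArg _ h).trans (p1 y))
    have h2 := (p2 x).symm.trans ((congrArg _ h).trans (p2 y))
    exact Prod.ext (Subtype.ext (Subtype.ext (smul_right_injective W hp.ne' h1)))
      (Subtype.ext (Subtype.ext (smul_right_injective W hr.ne' h2)))
  refine ⟨_, inferInstance, inferInstance, inferInstance, inferInstance, cs, mf, ms, bs, F, hF,
    min_of_prd hW K hk hl hp hr (by rw [hp2, hr2]; ring) hF hK, ?_, ?_⟩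
  · rintro ⟨a, ha, h⟩
    have z1 : ∀ x : sphere (0 : K) 1, ⟪((x : K) : W), a⟫ = 0 := by
      intro x
      obtain ⟨y⟩ : Nonempty (sphere (0 : Kᗮ) 1) := inferInstance
      have h1 := h (x, y)
      have h2 := h (x, -y)
      simp only [hFd, inner_add_left, real_inner_smul_left, coe_neg_sphere, Submodule.coe_neg,
        inner_neg_left] at h1 h2
      exact (mul_eq_zero.1 (by linarith : p * ⟪((x : K) : W), a⟫ = 0)).resolve_left hp.ne'
    have z2 : ∀ y : sphere (0 : Kᗮ) 1, ⟪((y : Kᗮ) : W), a⟫ = 0 := by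
      intro y
      obtain ⟨x⟩ : Nonempty (sphere (0 : K) 1) := inferInstance
      have h1 := h (x, y)
      simp only [hFd, inner_add_left, real_inner_smul_left, z1, mul_zero, zero_add] at h1
      exact (mul_eq_zero.1 h1).resolve_left hr.ne'
    have z : ∀ L : Submodule ℝ W, (∀ x : sphere (0 : L) 1, ⟪((x : L) : W), a⟫ = 0) → a ∈ Lᗮ := by
      intro L hL
      rw [Submodule.mem_orthogonal]
      intro u hu
      rcases eq_or_ne u 0 with rfl | h0
      · exact inner_zero_left _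
      have h1 := hL ⟨‖u‖⁻¹ • (⟨u, hu⟩ : L), by
        rw [mem_sphere_zero_iff_norm]
        exact norm_smul_inv_norm (𝕜 := ℝ) (x := (⟨u, hu⟩ : L)) fun h2 => h0 (congrArg Subtype.val h2)⟩
      simp only [Submodule.coe_smul, real_inner_smul_left] at h1
      exact (mul_eq_zero.1 h1).resolve_left (inv_ne_zero (norm_ne_zero_iff.2 h0))
    exact ha ((Submodule.disjoint_def.1 Kᗮ.orthogonal_disjoint) a (z K z1) (z Kᗮ z2))
  · rw [hm]
    refine volM_least (by omega) hm hW K (by omega) hF hinj fun x => ?_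
    have h := proj_add K (F x)
    rw [← hld, ← hkd, ← hp2, ← hr2, (hK x).1, ← (hK x).2, eq_sub_of_add_eq' h]
    exact ⟨rfl, rfl⟩

end Ex

end Vale.Agent.N224
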