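import Vale.Agent.N224.Odd
import Vale.Agent.P224.R2.H176.G.Full

/-!
The case of equality of the sharp volume bound in every dimension.
-/

namespace Vale.Agent.N224

open MeasureTheory Set Filter Function Real Module Vale.Agent.P224 Vale.Agent.P224.FV
  Vale.Agent.P224.R2 Vale.Agent.P224.R2.H582 Vale.Agent.P224.R2.H820
open Vale.Agent.P224.R2.H176 (NearData FarU)
open scoped RealInnerProductSpace Topology ContDiff Manifold ENNReal

set_option linter.unusedSectionVars false

lemma lc_two : leastClifford 2 ≤ 2 * π ^ 2 := by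
  have h2π : evenRatio 1 * sphereVol 2 = 2 * π ^ 2 := by
    rw [evenRatio_one, H758.sphereVol_two]
    ring
  rw [← h2π]
  exact even_bound (k := 1) (by norm_num) le_rfl

/-- the two kernels of dimension two are positive -/
lemma L_pos {s : ℝ} (hs : -1 ≤ s) : 0 < H758.LB s ∧ 0 < H758.LA s := by
  obtain ⟨h1, h2⟩ := H758.pi_sq_bd
  obtain ⟨t, ht, rfl⟩ : ∃ t : ℝ, 0 ≤ t ∧ s = t - 1 := ⟨s + 1, by linarith, by ring⟩
  have ht2 : 0 ≤ t ^ 2 := sq_nonneg t
  have ht3 : 0 ≤ t ^ 3 := pow_nonneg ht 3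
  unfold H758.LB H758.LA
  generalize π ^ 2 = P at h1 h2
  have a1 := mul_nonneg ht (sub_nonneg.2 h1)
  have a2 := mul_nonneg ht (sub_nonneg.2 h2)
  have b1 := mul_nonneg ht2 (sub_nonneg.2 h1)
  have b2 := mul_nonneg ht2 (sub_nonneg.2 h2)
  have c1 := mul_nonneg ht3 (sub_nonneg.2 h1)
  constructor
  · nlinarith [sq_nonneg (t - 1 / 5), mul_nonneg ht (sq_nonneg (t - 1 / 5))]
  · nlinarith [sq_nonneg (t - 1 / 2), mul_nonneg ht (sq_nonneg (t - 1 / 2))]

section

variable {V W M : Type*} [NormedAddCommGroup V] [InnerProductSpace ℝ V] [FiniteDimensional ℝ V]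
  [NormedAddCommGroup W] [InnerProductSpace ℝ W] [FiniteDimensional ℝ W]
  [TopologicalSpace M] [ChartedSpace V M]
  [MeasurableSpace V] [BorelSpace V] [MeasurableSpace M] [BorelSpace M]
  [MeasurableSpace W] [BorelSpace W]
  [IsManifold 𝓘(ℝ, V) ∞ M] [CompactSpace M] [T2Space M] [ConnectedSpace M]

variable {F : M → W}

/-- in even dimensions the least Clifford volume is the constant of the two point law -/
lemma Sml.small (S : Sml V F) {k : ℕ} (hk : 2 ≤ k) (hV : finrank ℝ V = 2 * k) :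
    (volM V F).real univ ≤ 2 * lamM (finrank ℝ V) * sphereVol (finrank ℝ V) := by
  refine S.vol.trans ?_
  rw [hV, two_lamM hk]
  exact even_bound (by omega) le_rfl

/-- a normal field that is a diagonal image of the position has a symmetric pairing -/
lemma sym_of_hh (S : Sml V F) {N : M → W} (hNs : ContMDiff 𝓘(ℝ, V) 𝓘(ℝ, W) ∞ N)
    (b : OrthonormalBasis (Fin (finrank ℝ W)) ℝ W) (j : Fin (finrank ℝ W) → ℝ)
    (h : H728.hh (nrm (volM V F)) (Matrix.diagonal j) (co b F) (co b N) ≤ 0) (x y : M) :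
    ⟪N x, F y⟫ = ⟪F x, N y⟫ := by
  have hfin : IsFiniteMeasure (volM V F) := isFiniteMeasure_volM S.hF
  have hop : (volM V F).IsOpenPosMeasure :=
    ⟨fun U hU hne => (volM_pos_of_isOpen S.hW S.hF hU hne).ne'⟩
  have cF : Continuous F := S.hF.smooth.continuous
  have cN : Continuous N := hNs.continuous
  have e := H662.hh_norm (μ := nrm (volM V F)) (p := F) (n := N) b j
  have e2 : H728.hh (nrm (volM V F)) (Matrix.diagonal j) (co b F) (co b N)
      = ∫ z, ‖N z - H662.dop b j (F z)‖ ^ 2 ∂(nrm (volM V F)) := e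
  rw [e2, H577.int_nrm] at h
  have hA : 0 < ((volM V F) univ).toReal⁻¹ := inv_pos.2 S.volPos
  have cg : Continuous fun z => ‖N z - H662.dop b j (F z)‖ ^ 2 := by fun_prop
  have h0 : ∀ z, 0 ≤ ‖N z - H662.dop b j (F z)‖ ^ 2 := fun z => sq_nonneg _
  have h1 : ∫ z, ‖N z - H662.dop b j (F z)‖ ^ 2 ∂(volM V F) = 0 := by
    refine le_antisymm ?_ (integral_nonneg h0)
    by_contra hc
    exact absurd (mul_pos hA (not_le.1 hc)) (not_lt.2 h)
  have hint : Integrable (fun z => ‖N z - H662.dop b j (F z)‖ ^ 2) (volM V F) :=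
    cg.integrable_of_hasCompactSupport (HasCompactSupport.of_compactSpace _)
  have h2 := (integral_eq_zero_iff_of_nonneg h0 hint).1 h1
  have h3 := (cg.ae_eq_iff_eq _ continuous_zero).1 h2
  have h4 : ∀ z, N z = H662.dop b j (F z) := fun z => by
    have h5 : ‖N z - H662.dop b j (F z)‖ ^ 2 = 0 := congrFun h3 z
    exact sub_eq_zero.1 (norm_eq_zero.1 (pow_eq_zero_iff two_ne_zero |>.1 h5))
  rw [h4 x, h4 y, H662.dop_symm]

/-- the even dimensions from 400 on -/
theorem even_400 {k : ℕ} (hk : 200 ≤ k) (hV : finrank ℝ V = 2 * k) (S : Sml V F) : SymN V F := by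
  obtain ⟨hfar, hnear⟩ := S.big (by omega)
  obtain ⟨N, hNs, hN, htop⟩ := TP.exists_normal_le S.hW (by omega) S.hF S.inj
  obtain ⟨b, j, hnd⟩ := S.near (by omega) hNs hN htop
  have hS := hnear N b j (hnd _ hfar)
  have hA := S.volPos
  have h1 : 1 ≤ 2 * lamM (finrank ℝ V) * (sphereVol (finrank ℝ V) / (volM V F).real univ) := by
    rw [← mul_div_assoc, one_le_div hA]
    exact S.small (by omega) hV
  refine ⟨N, hNs, hN, sym_of_hh S hNs b j ?_⟩
  by_contra hc
  have hc' := not_le.1 hc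
  have h2 := hS (min (1 / 500 * H728.hh (nrm (volM V F)) (Matrix.diagonal j) (co b F) (co b N))
    (1 / 10 ^ 8)) (min_le_left _ _) (min_le_right _ _)
  have h3 : 0 < min (1 / 500 * H728.hh (nrm (volM V F)) (Matrix.diagonal j) (co b F) (co b N))
    (1 / 10 ^ 8) := lt_min (by positivity) (by positivity)
  linarith

/-- the even dimensions from 18 to 398 -/
theorem even_18 {k : ℕ} (hk : 9 ≤ k) (hk2 : k ≤ 199) (hV : finrank ℝ V = 2 * k) (S : Sml V F) :
    SymN V F := by
  obtain ⟨N, hNs, hN, htop⟩ := TP.exists_normal_le S.hW (by omega) S.hF S.inj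
  obtain ⟨b, j, hnd⟩ := S.near (by omega) hNs hN htop
  refine ⟨N, hNs, hN, sym_of_S0 S.hW S.hF hNs (m := finrank ℝ V) ?_⟩
  by_contra hc
  exact no_even ⟨rfl, by omega, S.hW, S.hF, S.hmin, hNs, hN, S.inj, S.small (by omega) hV,
    not_le.1 hc⟩ S.hng hnd ⟨k, by omega⟩ (by omega)

/-- all dimensions from 17 on -/
theorem symN_17 (hm : 17 ≤ finrank ℝ V) (S : Sml V F) : SymN V F := by
  rcases Nat.even_or_odd' (finrank ℝ V) with ⟨k, hk | hk⟩
  · rcases le_or_gt k 199 with h | h
    · exact even_18 (by omega) h hk S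
    · exact even_400 (by omega) hk S
  · rcases le_or_gt k 17 with h | h
    · exact odd_17 (by omega) h hk S
    rcases le_or_gt k 199 with h' | h'
    · exact odd_37 (by omega) h' hk S
    · exact odd_401 (by omega) hk S

/-- dimension two -/
theorem symN_two (hV : finrank ℝ V = 2) (S : Sml V F) : SymN V F := by
  have hA0 := S.volPos
  obtain ⟨hW, hF, hmin, hng, hinj, hvol⟩ := S
  have hfin : IsFiniteMeasure (volM V F) := isFiniteMeasure_volM hF
  have hpi := Real.pi_lt_d6
  have hpi0 := Real.pi_pos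
  have hle : (volM V F).real univ ≤ 2 * π ^ 2 := hvol.trans (by rw [hV]; exact lc_two)
  have h65 : 6 / 5 * sphereVol 2 ≤ (volM V F).real univ := by
    have h1 := (PM.main_frac (by omega) hW hF hmin hng).1
    have h2 := ENNReal.toReal_mono (measure_ne_top _ _) h1
    rw [ENNReal.toReal_ofReal (mul_nonneg (by norm_num) (sphereVol_pos' _).le), hV] at h2
    exact h2
  have hhi : (volM V F).real univ ≤ 3141593 / 2000000 * sphereVol 2 := by
    rw [H758.sphereVol_two]
    nlinarith
  obtain ⟨N, hNs, hN, htop⟩ := TP.exists_normal_le hW (by omega) hF hinj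
  rw [hV] at htop
  obtain ⟨e, he⟩ : ∃ e : W, (volM V F).real univ • e = ∫ x, N x ∂(volM V F) :=
    ⟨((volM V F).real univ)⁻¹ • ∫ x, N x ∂(volM V F), by
      rw [smul_smul, mul_inv_cancel₀ hA0.ne', one_smul]⟩
  have hsm := H614.far2 hV hW hF hmin hNs hN hinj he htop h65 hhi
  have h2 := SM2.two_of_min hW hF hmin hNs hN
  rw [hV] at h2
  have hlaw := H758.sharp_defect2 hV (by omega) hF hmin hNs hN hinj
    (B := H758.BT (volM V F) F N) H758.intble_BT (fun T hT => by
      rw [H758.BT_eq h2]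
      unfold H758.DM2 DF
      refine integral_mono_ae ?_ (H758.integrable_FK' h2 H758.certP2 hT)
        (Eventually.of_forall fun q => H758.low_le h2 hT q)
      exact H758.intP h2 (H758.low T) (by unfold H758.low H758.pp; fun_prop))
  rw [H758.int_BT h2] at hlaw
  have hn : ‖∫ x, N x ∂(volM V F)‖ = (volM V F).real univ * ‖e‖ := by
    rw [← he, norm_smul, Real.norm_eq_abs, abs_of_pos hA0]
  have h9 := mul_le_mul_of_nonneg_right H758.two_r2_zero_le
    (sq_nonneg ((volM V F).real univ * ‖e‖))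
  rw [hn] at hlaw
  have hI : ∫ q, H758.LL (SM2.pr F N q) ∂((volM V F).prod (volM V F))
      ≤ 6577 / 10000 * ((volM V F).real univ * ‖e‖) ^ 2 := by
    have := mul_le_mul_of_nonneg_right hle hA0.le
    nlinarith
  have h0 : e = 0 := by
    by_contra h0
    have hν : 0 < ‖e‖ := norm_pos_iff.2 h0
    obtain ⟨C, hE⟩ := UE.embD_of_inj (by omega) hW hF hmin hNs hN hinj
    rw [hV] at hE
    have hv : ‖(‖e‖⁻¹ • e : W)‖ = 1 := by
      rw [norm_smul, norm_inv, norm_norm, inv_mul_cancel₀ hν.ne']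
    have hev : ((volM V F).real univ * ‖e‖) • (‖e‖⁻¹ • e : W) = ∫ x, N x ∂(volM V F) := by
      rw [smul_smul, mul_assoc, mul_inv_cancel₀ hν.ne', mul_one]
      exact he
    have h7 := H758.near_int hE hv hν hev hA0
    have hpt : ∀ q, H758.SQ4 (SM2.pr F N q) ≤ H758.LL (SM2.pr F N q) := by
      intro q
      have h4 := H758.SQ4_le (d := UE.dat F N e q) (abs_le.2 (h2.pr_mem q).1)
      rwa [H758.r4_dat] at h4
    have h6 := integral_mono (H758.intP h2 H758.SQ4 H758.continuous_SQ4)
      (H758.intP h2 H758.LL (by unfold H758.LL H758.LB H758.LA; fun_prop)) hpt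
    have h8 := (h7.trans h6).trans hI
    generalize (volM V F).real univ = A at hA0 h8
    generalize ‖e‖ = ν at hν hsm h8
    have h11 : 0 < A ^ 2 * ν := by positivity
    have h12 := mul_lt_mul_of_pos_left hsm h11
    nlinarith
  rw [h0, norm_zero, mul_zero, zero_pow two_ne_zero, mul_zero] at hI
  have cF : Continuous F := hF.smooth.continuous
  have cN : Continuous N := hNs.continuous
  have cL : Continuous fun q => H758.LL (SM2.pr F N q) := by
    unfold H758.LL H758.LB H758.LA SM2.pr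
    fun_prop
  have hpos : ∀ q, 0 < H758.LB (SM2.pr F N q).1 ∧ 0 < H758.LA (SM2.pr F N q).1 :=
    fun q => L_pos (h2.pr_mem q).1.1
  have hz := pair_zero hW hF cL (fun q => add_nonneg (mul_nonneg (hpos q).1.le (sq_nonneg _))
    (mul_nonneg (hpos q).2.le (sq_nonneg _))) hI
  refine ⟨N, hNs, hN, fun x y => ?_⟩
  have h10 := hz (x, y)
  have h11 := mul_nonneg (hpos (x, y)).1.le
    (sq_nonneg ((SM2.pr F N (x, y)).2.2.2 - (SM2.pr F N (x, y)).1))
  have h12 := mul_nonneg (hpos (x, y)).2.le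
    (sq_nonneg ((SM2.pr F N (x, y)).2.2.1 - (SM2.pr F N (x, y)).2.1))
  have h13 : H758.LA (SM2.pr F N (x, y)).1
      * ((SM2.pr F N (x, y)).2.2.1 - (SM2.pr F N (x, y)).2.1) ^ 2 = 0 := by
    unfold H758.LL at h10
    linarith
  exact sub_eq_zero.1 (pow_eq_zero_iff two_ne_zero |>.1
    ((mul_eq_zero.1 h13).resolve_left (hpos (x, y)).2.ne'))

/-- **The case of equality in every dimension.** -/
theorem equality (h2 : 2 ≤ finrank ℝ V) (hW : finrank ℝ W = finrank ℝ V + 2) (hF : SphImm V F)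
    (hmin : ∀ x n, IsUnitNormal V F x n → meanCurv V F x n = 0)
    (hng : ¬ ∃ a : W, a ≠ 0 ∧ ∀ x, ⟪F x, a⟫ = 0) :
    volM V F univ = ENNReal.ofReal (leastClifford (finrank ℝ V)) ↔
      Injective F ∧ ∃ U : Submodule ℝ W, finrank ℝ U = finrank ℝ V / 2 + 1 ∧
        range F = {z | ‖U.starProjection z‖ ^ 2 = ((finrank ℝ V / 2 : ℕ) : ℝ) / finrank ℝ V ∧
          ‖z - U.starProjection z‖ ^ 2
            = ((finrank ℝ V - finrank ℝ V / 2 : ℕ) : ℝ) / finrank ℝ V} := by
  by_cases h16 : 3 ≤ finrank ℝ V ∧ finrank ℝ V ≤ 16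
  · exact (H166.sharp16 h16.1 h16.2 hW hF hmin hng).2
  constructor
  · intro he
    have hvol : (volM V F).real univ ≤ leastClifford (finrank ℝ V) := by
      rw [measureReal_def, he, ENNReal.toReal_ofReal (RIG.leastClifford_nonneg _)]
    have hinj : Injective F := by
      by_contra hn
      have h1 := TwoSide.two_le (by omega) hW hF hmin hn
      rcases eq_or_lt_of_le h2 with h3 | h3
      · rw [← h3] at h1 hvol
        rw [H758.sphereVol_two] at h1
        have h4 := lc_two
        have hpi := Real.pi_lt_d6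
        have hpi0 := Real.pi_pos
        nlinarith
      · have h4 := lc_lt_two (m := finrank ℝ V) (by omega)
        linarith
    have S : Sml V F := ⟨hW, hF, hmin, hng, hinj, hvol⟩
    obtain ⟨N, hNs, hN, hsym⟩ : SymN V F := by
      rcases eq_or_lt_of_le h2 with h3 | h3
      · exact symN_two h3.symm S
      · exact symN_17 (by omega) S
    exact ⟨hinj, rigid_of_sym h2 hW hF hmin hng hinj hNs hN hsym hvol⟩
  · rintro ⟨hinj, U, hU, hr⟩
    refine RIG.volM_least (by omega) rfl hW U hU hF hinj fun x => ?_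
    have hx : F x ∈ range F := mem_range_self x
    rw [hr] at hx
    exact hx

end

end Vale.Agent.N224
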