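import Vale.Agent.N224.Spec
import Vale.Agent.N224.Even

/-!
Odd dimensions from 17 on: a hypersurface of least volume has a symmetric pairing of position and
normal.
-/

namespace Vale.Agent.N224

open MeasureTheory Set Filter Function Real Module Vale.Agent.P224 Vale.Agent.P224.FV
  Vale.Agent.P224.R2 Vale.Agent.P224.R2.H925 Vale.Agent.P224.R2.H582 Vale.Agent.P224.R2.H728
  Vale.Agent.P224.R2.H742 Vale.Agent.P224.R2.H820 Vale.Agent.P224.R2.H424
  Vale.Agent.P224.R2.H494.ZT Vale.Agent.P224.R2.H433 Vale.Agent.P224.R2.H627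
open Vale.Agent.P224.SM2 hiding ker
open Vale.Agent.P224.R2.H176 (NearData NearOut FarU sqrt_uu near_tab)
open Vale.Agent.P224.R2.H535 (BoxLaw boxH boxD)
open Vale.Agent.P224.R2.H577 (NearU)
open Vale.Agent.P224.R2.H424.Tls (relD)
open scoped RealInnerProductSpace Topology ContDiff Manifold ENNReal

set_option linter.unusedSectionVars false

/-- the strict gap -/
theorem gap_lt {h : ℕ} (hh : 8 ≤ h) :
    (1 - 1 / (3 * (2 * h + 1 : ℝ) ^ 3)) * oddRatio h < 2 * lamM (2 * h + 1) := by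
  have hh' : (8 : ℝ) ≤ h := by exact_mod_cast hh
  set m : ℝ := 2 * h + 1 with hm
  have hm17 : 17 ≤ m := by linarith
  have hm0 : 0 < m := by linarith
  have h2 : (0 : ℝ) < √2 := by positivity
  have e1 : 2 * lamM (2 * h + 1) = Rr (m / 2) := by
    unfold lamM Rr
    push_cast
    rw [← hm]
    have h3 : m - 2 ≠ 0 := by linarith
    have h4 : m / 2 - 1 ≠ 0 := by
      have : m / 2 - 1 = (m - 2) / 2 := by ring
      rw [this]
      exact div_ne_zero h3 two_ne_zero
    have h5 : (2 * (m / 2) - 1) / (m / 2 - 1) = 2 * ((m - 1) / (m - 2)) := by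
      rw [div_eq_iff h4]
      field_simp
    rw [h5]
    ring
  rw [e1]
  have hR := Rr_pos (a := m / 2) (by linarith)
  have hl := Ug_le_log (a := m / 2) (by linarith)
  have e2 : 2 * (m / 2) = m := by ring
  rw [e2] at hl
  have hO : 0 < oddRatio h := by
    unfold oddRatio
    have : (0 : ℝ) < h := by linarith
    positivity
  have hg0 : 0 < 1 - 1 / (3 * m ^ 3) := by
    rw [sub_pos, div_lt_one (by positivity)]
    nlinarith [pow_pos hm0 2]
  have key : log ((1 - 1 / (3 * m ^ 3)) * oddRatio h / √2) < log (Rr (m / 2) / √2) := by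
    refine lt_of_lt_of_le ?_ hl
    have e3 : (1 - 1 / (3 * m ^ 3)) * oddRatio h / √2
        = (1 - 1 / (3 * m ^ 3)) * (oddRatio h / √2) := by ring
    rw [e3, log_mul hg0.ne' (by positivity), log_oddRatio (by omega) hm]
    have h3 : log (1 - 1 / (3 * m ^ 3)) ≤ -(1 / (3 * m ^ 3)) := by
      have := log_le_sub_one_of_pos hg0
      linarith
    set x := 1 / m with hx
    have hx0 : 0 < x := by positivity
    have hx1 : x ≤ 1 / 17 := one_div_le_one_div_of_le (by norm_num) hm17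
    have h4 := log_bd hx0 hx1
    have h5 := mul_le_mul_of_nonneg_left h4 (by positivity : 0 ≤ m / 4)
    have hmx : m = 1 / x := by rw [hx, one_div_one_div]
    have e4 : m / 4 * (x ^ 2 + x ^ 4 / 6 + x ^ 6 / 5) = x / 4 + x ^ 3 / 24 + x ^ 5 / 20 := by
      rw [hmx]
      field_simp
      ring
    have e5 : 1 / (3 * m ^ 3) = x ^ 3 / 3 := by
      rw [hmx]
      field_simp
    have e6 : Ug m = x / 4 - 7 / 24 * x ^ 3 + x ^ 5 / 2 := by
      unfold Ug
      rw [hmx]
      field_simp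
    rw [e4] at h5
    rw [e5] at h3 ⊢
    rw [e6]
    have : 0 < x ^ 5 := by positivity
    linarith
  rw [log_lt_log_iff (by positivity) (by positivity)] at key
  rwa [div_lt_div_iff_of_pos_right h2] at key

/-- the boundary value of the flow does not vanish -/
lemma P_one_neg {a L : ℝ} (hp : Par a L) (s : ZSol a L) : s.P 1 < 0 := by
  set t := H355.hsol hp.a0 s with ht
  have h0 := HS.P_nonneg t hp
  have h1 : 0 < t.P 1 := by
    refine lt_of_le_of_ne (h0 1 ⟨zero_le_one, le_rfl⟩) fun he => ?_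
    have mono : MonotoneOn t.P (Icc 0 1) := by
      refine monotoneOn_of_deriv_nonneg (convex_Icc 0 1) t.cP.c0 ?_ ?_
      · rw [interior_Icc]
        exact fun x hx => (ct t.cP hx).differentiableAt.differentiableWithinAt
      · rw [interior_Icc]
        intro x hx
        rw [(ct t.cP hx).deriv]
        exact HS.P1_nonneg t hp x ⟨hx.1.le, hx.2.le⟩
    have z0 : ∀ x ∈ Ioo (0 : ℝ) 1, t.P x = 0 := fun x hx =>
      le_antisymm (he ▸ mono ⟨hx.1.le, hx.2.le⟩ ⟨zero_le_one, le_rfl⟩ hx.2.le)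
        (h0 x ⟨hx.1.le, hx.2.le⟩)
    have zz : ∀ {f : ℝ → ℝ} {x c : ℝ}, x ∈ Ioo (0 : ℝ) 1 → (∀ y ∈ Ioo (0 : ℝ) 1, f y = 0) →
        HasDerivAt f c x → c = 0 := by
      intro f x c hx hf hd
      have e : f =ᶠ[𝓝 x] fun _ => 0 := by
        filter_upwards [isOpen_Ioo.mem_nhds hx] with y hy using hf y hy
      exact (hd.congr_of_eventuallyEq e.symm).unique (hasDerivAt_const x 0)
    have z1 : ∀ x ∈ Ioo (0 : ℝ) 1, t.P1 x = 0 := fun x hx => zz hx z0 (ct t.cP hx)
    have hh : (1 / 2 : ℝ) ∈ Ioo (0 : ℝ) 1 := ⟨by norm_num, by norm_num⟩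
    have z2 : t.P2 (1 / 2) = 0 := zz hh z1 (ct1 t.cP hh)
    have e := HS.hP1 t hp (h := 1 / 2) ⟨hh.1.le, hh.2.le⟩
    have d := HS.D_ge t hp (1 / 2) ⟨hh.1.le, hh.2.le⟩
    rw [z0 _ hh, z1 _ hh, z2] at e
    have : 0 < a * (1 / 2 * HS.D t (1 / 2)) := mul_pos hp.a0 (by linarith)
    linarith
  have h := H355.P_one_eq hp.a0 s
  have h2 : 0 < -(s.P 1) := by
    rw [h]
    have := hp.a0
    positivity
  linarith

section

variable {V W M : Type*} [NormedAddCommGroup V] [InnerProductSpace ℝ V] [FiniteDimensional ℝ V]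
  [NormedAddCommGroup W] [InnerProductSpace ℝ W] [FiniteDimensional ℝ W]
  [TopologicalSpace M] [ChartedSpace V M]
  [MeasurableSpace V] [BorelSpace V] [MeasurableSpace M] [BorelSpace M]
  [MeasurableSpace W] [BorelSpace W]
  [IsManifold 𝓘(ℝ, V) ∞ M] [CompactSpace M] [T2Space M] [ConnectedSpace M]

/-- an embedded minimal hypersurface whose volume is at most the least Clifford volume -/
structure Sml (V : Type*) {W M : Type*} [NormedAddCommGroup V] [InnerProductSpace ℝ V]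
    [FiniteDimensional ℝ V] [MeasurableSpace V] [BorelSpace V] [NormedAddCommGroup W]
    [InnerProductSpace ℝ W] [FiniteDimensional ℝ W] [TopologicalSpace M] [ChartedSpace V M]
    [MeasurableSpace M] (F : M → W) : Prop where
  hW : finrank ℝ W = finrank ℝ V + 2
  hF : SphImm V F
  hmin : ∀ x n, IsUnitNormal V F x n → meanCurv V F x n = 0
  hng : ¬ ∃ a : W, a ≠ 0 ∧ ∀ x, ⟪F x, a⟫ = 0
  inj : Injective F
  vol : (volM V F).real univ ≤ leastClifford (finrank ℝ V)

/-- a unit normal field with symmetric pairing -/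
def SymN (V : Type*) {W M : Type*} [NormedAddCommGroup V] [InnerProductSpace ℝ V]
    [FiniteDimensional ℝ V] [NormedAddCommGroup W]
    [InnerProductSpace ℝ W] [TopologicalSpace M] [ChartedSpace V M] (F : M → W) : Prop :=
  ∃ N : M → W, ContMDiff 𝓘(ℝ, V) 𝓘(ℝ, W) ∞ N ∧ (∀ x, IsUnitNormal V F x (N x)) ∧
    ∀ x y, ⟪N x, F y⟫ = ⟪F x, N y⟫

variable {F : M → W}

lemma Sml.volPos (S : Sml V F) : 0 < (volM V F).real univ := by
  have hfin : IsFiniteMeasure (volM V F) := isFiniteMeasure_volM S.hF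
  exact ENNReal.toReal_pos (volM_pos_of_isOpen S.hW S.hF isOpen_univ univ_nonempty).ne'
    (measure_ne_top _ _)

/-- the data of the near range -/
lemma Sml.near (S : Sml V F) (hm : 1 ≤ finrank ℝ V) {N : M → W}
    (hNs : ContMDiff 𝓘(ℝ, V) 𝓘(ℝ, W) ∞ N) (hN : ∀ x, IsUnitNormal V F x (N x))
    (htop : ‖∫ x, N x ∂(volM V F)‖ ≤ sphereVol (finrank ℝ V)) :
    ∃ (b : OrthonormalBasis (Fin (finrank ℝ W)) ℝ W) (j : Fin (finrank ℝ W) → ℝ),
      ∀ ν, FarU V ν F → NearData V F N b j ν := by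
  obtain ⟨b, j, h0, hL⟩ := exists_eigen hm S.hW S.hF S.hmin hNs hN
  refine ⟨b, j, fun ν hfar => ⟨hNs, hN, S.inj, h0, hL, ?_⟩⟩
  rw [sqrt_uu S.hF hNs S.volPos b, div_lt_iff₀ S.volPos]
  exact hfar N hNs hN htop S.vol

/-- **one odd dimension** -/
theorem odd_core {h : ℕ} (h8 : 8 ≤ h) (hV : finrank ℝ V = 2 * h + 1) (S : Sml V F) {ν : ℝ}
    (hfar : FarU V ν F) {gp h1 d1 H D : ℝ} (hgp : 1 / (3 * (finrank ℝ V : ℝ) ^ 3) ≤ gp)
    (hnear : ∀ (N : M → W) (b : OrthonormalBasis (Fin (finrank ℝ W)) ℝ W)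
      (j : Fin (finrank ℝ W) → ℝ), NearData V F N b j ν → NearOut V F N b j gp h1 d1)
    (hh1 : h1 ≤ H) (hd1 : d1 ≤ D) (hbox : BoxLaw V F ν H D (finrank ℝ V)) : SymN V F := by
  have hA0 := S.volPos
  have S' := S
  obtain ⟨hW, hF, hmin, hng, hinj, hvol⟩ := S'
  have hm17 : 17 ≤ finrank ℝ V := by omega
  have hmR : (17 : ℝ) ≤ (finrank ℝ V : ℝ) := by exact_mod_cast hm17
  have hm1 : 0 < (finrank ℝ V : ℝ) ^ 2 - 1 := by nlinarith
  obtain ⟨L, hL⟩ : ∃ L : ℝ, L * ((finrank ℝ V : ℝ) ^ 2 - 1) = 4 :=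
    ⟨_, div_mul_cancel₀ _ hm1.ne'⟩
  obtain ⟨r, hr, hr2⟩ : ∃ r : ℝ, 0 < r ∧ r ^ 2 = (finrank ℝ V : ℝ) ^ 2 - 1 :=
    ⟨_, Real.sqrt_pos.2 hm1, Real.sq_sqrt hm1.le⟩
  obtain ⟨d, hd⟩ : ∃ d : ℝ, d = 2 / r := ⟨_, rfl⟩
  have s := zsol (par_of hm17 hL)
  have hε0 := P_one_neg (par_of hm17 hL) s
  obtain ⟨-, -, -, hs, h0, hl1, hlam, -, hc, -, -⟩ := flow_uZ hm17 hL s hr hr2 hd
  have hfin : IsFiniteMeasure (volM V F) := isFiniteMeasure_volM hF
  have hS0 : 0 < sphereVol (finrank ℝ V) := sphereVol_pos' _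
  have hle : leastClifford (finrank ℝ V) = oddRatio h * sphereVol (finrank ℝ V) := by
    rw [RIG.leastClifford_eq (by omega), hV, ← clifford_odd]
    congr 1
    omega
  obtain ⟨N, hNs, hN, htop⟩ := TP.exists_normal_le hW (by omega) hF hinj
  have hnz : NeZero (volM V F) := ⟨fun h => by
    rw [h] at hA0
    simp at hA0⟩
  have hT0 := t0Data_of_min (by omega) hW hF hmin hNs hN (stdOrthonormalBasis ℝ W)
  obtain ⟨N', hN'eq, hsp⟩ := spectral_E2S (stdOrthonormalBasis ℝ W) hT0 (by omega) (by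
    rw [Fintype.card_fin, hW, hV]
    exact ⟨h + 1, by ring⟩) hr hr2 hd
  have hN's : ContMDiff 𝓘(ℝ, V) 𝓘(ℝ, W) ∞ N' := by
    rcases hN'eq with h2 | h2
    · rw [h2]; exact hNs
    · rw [h2]; exact hNs.neg
  have hN' : ∀ x, IsUnitNormal V F x (N' x) := by
    rcases hN'eq with h2 | h2
    · rw [h2]; exact hN
    · rw [h2]
      exact fun x => ⟨by rw [norm_neg]; exact (hN x).1,
        by rw [inner_neg_right, (hN x).2.1, neg_zero],
        fun i => by rw [inner_neg_right, (hN x).2.2 i, neg_zero]⟩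
  have htop' : ‖∫ x, N' x ∂(volM V F)‖ ≤ sphereVol (finrank ℝ V) := by
    rcases hN'eq with h2 | h2
    · rw [h2]; exact htop
    · rw [h2, integral_neg, norm_neg]
      exact htop
  obtain ⟨b, j, hnd⟩ := S.near (by omega) hN's hN' htop'
  have hdat := hnd ν hfar
  have hVR : (finrank ℝ V : ℝ) = ((2 * h + 1 : ℕ) : ℝ) := by rw [hV]
  have hout : hh (nrm (volM V F)) (Matrix.diagonal j) (co b F) (co b N') ≤ h1 ∧
      √(fro (De (nrm (volM V F)) (co b F) (co b N'))) ≤ d1 := by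
    refine (hnear N' b j hdat).resolve_left fun hcase => ?_
    have hg := gap_lt h8
    have em : (finrank ℝ V : ℝ) = 2 * h + 1 := by
      rw [hV]
      push_cast
      ring
    rw [em] at hgp
    have h1 : 1 ≤ oddRatio h * (sphereVol (finrank ℝ V) / (volM V F).real univ) := by
      rw [← mul_div_assoc, one_le_div hA0, ← hle]
      exact hvol
    have eL : lamM (finrank ℝ V) = lamM (2 * h + 1) := by rw [hV]
    rw [eL] at hcase
    set q := sphereVol (finrank ℝ V) / (volM V F).real univ with hq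
    have hq0 : 0 < q := div_pos hS0 hA0
    have h2 := mul_lt_mul_of_pos_right hg hq0
    have h4 : 0 < 1 - 1 / (3 * (2 * (h : ℝ) + 1) ^ 3) := by
      have h5 : (1 : ℝ) < 3 * (2 * (h : ℝ) + 1) ^ 3 := by
        have : (1 : ℝ) ≤ (2 * (h : ℝ) + 1) ^ 3 := one_le_pow₀ (by
          have : (0 : ℝ) ≤ h := Nat.cast_nonneg h
          linarith only [this])
        linarith only [this]
      have := (div_lt_one (by positivity : (0 : ℝ) < 3 * (2 * (h : ℝ) + 1) ^ 3)).2 h5
      linarith only [this]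
    have h6 : 0 ≤ (1 - 1 / (3 * (2 * (h : ℝ) + 1) ^ 3)) * (oddRatio h * q - 1) :=
      mul_nonneg h4.le (by linarith only [h1])
    linarith only [h2, h6, hcase, hgp]
  obtain ⟨B, hBi, hB, hBu⟩ :=
    hbox L d r s hL hr hr2 hd N' b j hdat (hout.1.trans hh1) (hout.2.trans hd1)
  have hd2 : d ^ 2 < 4 := by
    rw [hd, div_pow, hr2, div_lt_iff₀ hm1]
    nlinarith
  have hd0 : 0 < d := by rw [hd]; positivity
  have hlaw := adapted_defect (by omega) hW hF hmin hN's hN' hinj hd2 hs h0 hl1 hlam hBi hB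
  have hP := PL_of_min hW hF hmin hN's hN'
  have hcN : Continuous N' := hN's.continuous
  rw [int_f0K hP (hcN.integrable_of_hasCompactSupport (HasCompactSupport.of_compactSpace N'))]
    at hlaw
  set A := (volM V F).real univ with hA
  set S0 := sphereVol (finrank ℝ V) with hS
  set c0 := ((finrank ℝ V : ℝ) - 2) / (finrank ℝ V - 1) * s.y 1 + L * s.F 1 with hc0
  set X : ℝ := 2 * d * s.P 1 / (finrank ℝ V + 1) with hX
  have hX0 : 0 < -X := by
    rw [hX, neg_pos]
    exact div_neg_of_neg_of_pos (mul_neg_of_pos_of_neg (by positivity) hε0) (by positivity)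
  have h5 := mul_le_mul_of_nonneg_left hsp hX0.le
  have hh : 1 ≤ h := by omega
  have hCD := CD_of (k := h + 1) (l := h) (by omega) hh (m := 2 * h + 1) (by ring)
  have hr2' : r ^ 2 = ((2 * h + 1 : ℕ) : ℝ) ^ 2 - 1 := by rw [hr2, hV]
  have hhR : (1 : ℝ) ≤ h := by exact_mod_cast hh
  have hsq : √(((h + 1 : ℕ) : ℝ) * (h : ℕ)) = r / 2 := by
    rw [show ((h + 1 : ℕ) : ℝ) * (h : ℕ) = (r / 2) ^ 2 by
      rw [div_pow, hr2']; push_cast; ring]
    exact Real.sqrt_sq (by positivity)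
  have hdd : (2 : ℝ) / r = (((h + 1 : ℕ) : ℝ) / (2 * h + 1 : ℕ) - ((h : ℕ) : ℝ) / (2 * h + 1 : ℕ))
      / (√((h + 1 : ℕ) * (h : ℕ)) / (2 * h + 1 : ℕ)) := by
    rw [hsq]
    have : ((2 * h + 1 : ℕ) : ℝ) ≠ 0 := by positivity
    push_cast at this ⊢
    field_simp
    ring
  have hs' : Sys (2 * h + 1) (2 / r) (uZ s) := by
    rw [← hV, ← hd]
    exact hs
  have h0' : Lim0 (2 * h + 1) (2 / r) (uZ s) (s.P 1) (JE s 0) c0 := by
    rw [← hV, ← hd]
    exact h0
  have hl1' : Lim1 (2 * h + 1) (uZ s) 1 := by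
    rw [← hV]
    exact hl1
  rw [hd] at hd2
  have hratio := hCD.ratio (by omega) hdd hd2 hs' h0' hl1'
  rw [F0C_eq hh hr hr2'] at hratio
  have hcl : cliffordVol (2 * h + 1) (h + 1) = oddRatio h * S0 := by
    have h6 := RIG.cliffordVol_symm (m := 2 * h + 1) (k := h) hh (by omega)
    rw [show 2 * h + 1 - h = h + 1 by omega] at h6
    rw [h6, clifford_odd, hS, hV]
  rw [hcl] at hratio
  have hS' : sphereVol (2 * h + 1) = S0 := by rw [hS, hV]
  rw [hS', ← hVR, ← hd, ← hX, ← hle] at hratio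
  set F0 : ℝ := c0 + X * Jkl (finrank ℝ V) r with hF0
  have hκ : 0 < -X * (dl (finrank ℝ V) / r * ((finrank ℝ V + 1) / 2)) := by
    have : 0 < dl (finrank ℝ V) := div_pos (div_pos (by linarith) hm1) two_pos
    positivity
  have h7 : F0 * (A * A) ≤ F0 * (leastClifford (finrank ℝ V) * A) :=
    mul_le_mul_of_nonneg_left (mul_le_mul_of_nonneg_right hvol hA0.le) hc.le
  have h8 : -X * (dl (finrank ℝ V) / r * ((finrank ℝ V + 1) / 2)) * E2 (volM V F) F N' Xk ≤ 0 := by
    have e1 : F0 * (leastClifford (finrank ℝ V) * A) = 2 * 1 * (S0 * A) := by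
      rw [← mul_assoc, hratio]
      ring
    have e2 : F0 * (A * A) = c0 * A ^ 2 + X * (Jkl (finrank ℝ V) r * A ^ 2) := by
      rw [hF0]
      ring
    have e3 : (7 - dl (finrank ℝ V)) / r = 7 / r - dl (finrank ℝ V) / r := sub_div _ _ _
    rw [e1, e2] at h7
    rw [e3] at h5
    linarith
  have h9 : E2 (volM V F) F N' Xk ≤ 0 := by
    by_contra hcon
    exact absurd (mul_pos hκ (not_le.1 hcon)) (not_lt.2 h8)
  refine ⟨N', hN's, hN', fun x y => ?_⟩
  have cF : Continuous F := hF.smooth.continuous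
  have cX : Continuous fun q => Xk (SM2.pr F N' q) := by
    unfold Xk SM2.pr
    fun_prop
  have h10 := pair_zero hW hF cX (fun q => sq_nonneg _) h9 (x, y)
  exact sub_eq_zero.1 (pow_eq_zero_iff two_ne_zero |>.1 h10)

/-- one odd dimension from 17 to 35 -/
theorem odd_row {h : ℕ} (h8 : 8 ≤ h) (h17 : h ≤ 17) (hV : finrank ℝ V = 2 * h + 1) (S : Sml V F)
    {r : NRow} (hr : nrowOK 17 17 17 17 17 r = true) (hmm : r.m = finrank ℝ V)
    {p : ParQ} {laws : List LawQ} {els : List (ElQ × ℚ × ℚ)} {cols : List ColQ}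
    (hrow : rowOK r p laws (relD r.m) = true)
    (hok : nearOK p laws (els.map Prod.fst) cols = true) (hels : e7All p.m els = true)
    (hν : (1 / 50 : ℝ) ≤ p.ν) (hgp : 1 / (3 * (r.m : ℚ) ^ 3) ≤ p.gp)
    {o : H178.OBox} {h1 d1 : ℚ} (e1 : p.h1 = h1) (e2 : p.d1 = d1)
    (ho : H178.oboxOK (2 * h + 1) h1 d1 o = true) (hrl : o.rl = H178.relO (2 * h + 1)) :
    SymN V F := by
  rw [← hV] at ho hrl
  refine odd_core h8 hV S (ν := 1 / 50) (fun N hNs hN htop hhi =>
    H567.far_thin50 h8 h17 hV S.hW S.hF S.hmin S.hng hNs hN htop hhi) ?_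
    (fun N b j hd => near_tab hr hmm (by omega) S.hW S.hF S.hmin hrow hok hels hν N b j hd)
    le_rfl le_rfl ?_
  · have h1 := (Rat.cast_le (K := ℝ)).2 hgp
    push_cast at h1
    rw [hmm] at h1
    exact h1
  · intro L d r' s hL hr0 hr2 hd N b j hnd hh1 hfd
    have hd0 : 0 < d := by
      rw [hd]
      positivity
    have hd2 : d ^ 2 * ((finrank ℝ V : ℝ) ^ 2 - 1) = 4 := by
      rw [← hr2, hd, div_pow, div_mul_cancel₀ _ (pow_pos hr0 2).ne']
      norm_num
    obtain ⟨lam, hin⟩ := H178.oddIns (m := finrank ℝ V) (by omega) L d s hL hd0 hd2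
    have htail := H178.relO_min (V := V) (i := h - 8) (by omega) (m := finrank ℝ V) (by omega) rfl
      S.hW S.hF S.hmin hnd.smooth hnd.unit b j (l := H178.lamO (finrank ℝ V))
      (fun T _ hT => H178.lamO_low hT) (fun T _ hT => H178.lamO_high hT)
    rw [← hrl] at htail
    rw [e1] at hh1
    rw [e2] at hfd
    exact H178.hodd_of rfl S.hW S.hF S.hmin ho hL s hr0 hr2 hd hin N b j hnd htail hh1 hfd

/-- the odd dimensions from 17 to 35 -/
theorem odd_17 {h : ℕ} (h1 : 8 ≤ h) (h2 : h ≤ 17) (hV : finrank ℝ V = 2 * h + 1) (S : Sml V F) :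
    SymN V F := by
  interval_cases h
  · exact odd_row h1 h2 hV S TbO.r17_ok (by rw [hV]; rfl) TbO.row17 TbO.ok17 TbO.el17
      (by norm_num [TbO.p17]) (by norm_num [TbO.p17, TbO.r17]) rfl rfl H178.BoxT.o17_ok rfl
  · exact odd_row h1 h2 hV S TbO.r19_ok (by rw [hV]; rfl) TbO.row19 TbO.ok19 TbO.el19
      (by norm_num [TbO.p19]) (by norm_num [TbO.p19, TbO.r19]) rfl rfl H178.BoxT.o19_ok rfl
  · exact odd_row h1 h2 hV S TbO.r21_ok (by rw [hV]; rfl) TbO.row21 TbO.ok21 TbO.el21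
      (by norm_num [TbO.p21]) (by norm_num [TbO.p21, TbO.r21]) rfl rfl H178.BoxT.o21_ok rfl
  · exact odd_row h1 h2 hV S TbO.r23_ok (by rw [hV]; rfl) TbO.row23 TbO.ok23 TbO.el23
      (by norm_num [TbO.p23]) (by norm_num [TbO.p23, TbO.r23]) rfl rfl H178.BoxT.o23_ok rfl
  · exact odd_row h1 h2 hV S TbO.r25_ok (by rw [hV]; rfl) TbO.row25 TbO.ok25 TbO.el25
      (by norm_num [TbO.p25]) (by norm_num [TbO.p25, TbO.r25]) rfl rfl H178.BoxT.o25_ok rfl
  · exact odd_row h1 h2 hV S TbO.r27_ok (by rw [hV]; rfl) TbO.row27 TbO.ok27 TbO.el27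
      (by norm_num [TbO.p27]) (by norm_num [TbO.p27, TbO.r27]) rfl rfl H178.BoxT.o27_ok rfl
  · exact odd_row h1 h2 hV S TbO.r29_ok (by rw [hV]; rfl) TbO.row29 TbO.ok29 TbO.el29
      (by norm_num [TbO.p29]) (by norm_num [TbO.p29, TbO.r29]) rfl rfl H178.BoxT.o29_ok rfl
  · exact odd_row h1 h2 hV S TbO.r31_ok (by rw [hV]; rfl) TbO.row31 TbO.ok31 TbO.el31
      (by norm_num [TbO.p31]) (by norm_num [TbO.p31, TbO.r31]) rfl rfl H178.BoxT.o31_ok rfl
  · exact odd_row h1 h2 hV S TbO.r33_ok (by rw [hV]; rfl) TbO.row33 TbO.ok33 TbO.el33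
      (by norm_num [TbO.p33]) (by norm_num [TbO.p33, TbO.r33]) rfl rfl H178.BoxT.o33_ok rfl
  · exact odd_row h1 h2 hV S TbO.r35_ok (by rw [hV]; rfl) TbO.row35 TbO.ok35 TbO.el35
      (by norm_num [TbO.p35]) (by norm_num [TbO.p35, TbO.r35]) rfl rfl H178.BoxT.o35_ok rfl

/-- one odd dimension from 37 to 399 -/
theorem odd_FN {h : ℕ} (h1 : 18 ≤ h) (h2 : h ≤ 199) (hV : finrank ℝ V = 2 * h + 1) (S : Sml V F)
    {ν : ℝ} (hfar : FarU V ν F) (hnear : NearU V ν boxH boxD F) : SymN V F := by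
  obtain ⟨q, hq, hok, hrow⟩ := H535.row_399 (m := finrank ℝ V) (by omega) (by omega) (by omega)
  obtain ⟨p, -, -, hodd, hout⟩ := hnear
  obtain ⟨k1, -, k3, k4⟩ := hodd ⟨h, hV⟩
  have e3 := (Rat.cast_le (K := ℝ)).2 k3
  have e4 := (Rat.cast_le (K := ℝ)).2 k4
  rw [H535.boxH_cast] at e3
  rw [H535.boxD_cast] at e4
  exact odd_core (by omega) hV S hfar k1 hout e3 e4
    (H535.boxLaw_of (by omega) hrow hok hq rfl S.hW S.hF S.hmin
      (H178.tailO_all (by omega) (by omega) ⟨h, hV⟩ S.hW S.hF S.hmin) (H926.relO_cast _).ge)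

/-- the odd dimensions from 37 to 399 -/
theorem odd_37 {h : ℕ} (h1 : 18 ≤ h) (h2 : h ≤ 199) (hV : finrank ℝ V = 2 * h + 1) (S : Sml V F) :
    SymN V F := by
  rcases le_or_gt (finrank ℝ V) 40 with g | g
  · exact odd_FN h1 h2 hV S (H444.far_36 (by omega) S.hW S.hF S.hmin S.hng)
      (H577.near36 (by omega) (by omega) S.hW S.hF S.hmin)
  rcases le_or_gt (finrank ℝ V) 44 with g | g
  · exact odd_FN h1 h2 hV S (H444.far_41_le (ν := 1 / 40) (by norm_num) (by omega) S.hW S.hF S.hmin S.hng)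
      (H577.near41 (by omega) (by omega) S.hW S.hF S.hmin)
  rcases le_or_gt (finrank ℝ V) 59 with g | g
  · exact odd_FN h1 h2 hV S (H444.far_41_le (by norm_num) (by omega) S.hW S.hF S.hmin S.hng)
      (H684.nearF_45 (by omega) (by omega) S.hW S.hF S.hmin)
  rcases le_or_gt (finrank ℝ V) 99 with g | g
  · exact odd_FN h1 h2 hV S (H444.far_60_le (by norm_num) (by omega) S.hW S.hF S.hmin S.hng)
      (H684.nearF_60 (by omega) (by omega) S.hW S.hF S.hmin)
  rcases le_or_gt (finrank ℝ V) 139 with g | g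
  · exact odd_FN h1 h2 hV S (H444.far_100_le (by norm_num) (by omega) S.hW S.hF S.hmin S.hng)
      (H684.nearF_100 (by omega) (by omega) S.hW S.hF S.hmin)
  rcases le_or_gt (finrank ℝ V) 149 with g | g
  · exact odd_FN h1 h2 hV S (H444.far_100_le (by norm_num) (by omega) S.hW S.hF S.hmin S.hng)
      (H684.nearF_140 (by omega) (by omega) S.hW S.hF S.hmin)
  rcases le_or_gt (finrank ℝ V) 199 with g | g
  · exact odd_FN h1 h2 hV S (H444.far_150_le (by norm_num) (by omega) S.hW S.hF S.hmin S.hng)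
      (H684.nearF_150 (by omega) (by omega) S.hW S.hF S.hmin)
  rcases le_or_gt (finrank ℝ V) 229 with g | g
  · exact odd_FN h1 h2 hV S (H444.far_200_le (by norm_num) (by omega) S.hW S.hF S.hmin S.hng)
      (H684.nearF_200 (by omega) (by omega) S.hW S.hF S.hmin)
  rcases le_or_gt (finrank ℝ V) 249 with g | g
  · exact odd_FN h1 h2 hV S (H444.far_200_le (by norm_num) (by omega) S.hW S.hF S.hmin S.hng)
      (H684.nearF_230 (by omega) (by omega) S.hW S.hF S.hmin)
  rcases le_or_gt (finrank ℝ V) 299 with g | g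
  · exact odd_FN h1 h2 hV S (H444.far_250_le (by norm_num) (by omega) S.hW S.hF S.hmin S.hng)
      (H684.nearF_250 (by omega) (by omega) S.hW S.hF S.hmin)
  rcases le_or_gt (finrank ℝ V) 349 with g | g
  · exact odd_FN h1 h2 hV S (H444.far_300_le (by norm_num) (by omega) S.hW S.hF S.hmin S.hng)
      (H684.nearF_300 (by omega) (by omega) S.hW S.hF S.hmin)
  exact odd_FN h1 h2 hV S (H444.far_300_le (by norm_num) (by omega) S.hW S.hF S.hmin S.hng)
    (H684.nearF_350 (by omega) (by omega) S.hW S.hF S.hmin)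

/-- the near range of the large dimensions -/
lemma Sml.big (S : Sml V F) (hm : 400 ≤ finrank ℝ V) :
    FarU V H545.par.nuf F ∧ NearR V F H545.par.nuf := by
  have hnu : (H545.par.nuf : ℝ) = 21 / 5000 := by
    rw [H728.par_nuf]
    push_cast
    rfl
  exact ⟨H444.far_400_le hnu.ge hm S.hW S.hF S.hmin S.hng, fun N b j hd =>
    H728.nearS_400 hm S.hW S.hF S.hmin (H728.relU_400 hm S.hW S.hF S.hmin) hd⟩

/-- the odd dimensions from 401 on -/
theorem odd_401 {h : ℕ} (hh : 200 ≤ h) (hV : finrank ℝ V = 2 * h + 1) (S : Sml V F) :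
    SymN V F := by
  have hm : 400 ≤ finrank ℝ V := by omega
  obtain ⟨hfar, hnear⟩ := S.big hm
  have hdev := smallD_of hm S.hW S.hF S.hmin H728.par_tls (by rw [H728.par_nuf]; norm_num)
    (H728.relU_400 hm S.hW S.hF S.hmin)
  have hmR : (400 : ℝ) ≤ (finrank ℝ V : ℝ) := by exact_mod_cast hm
  have hm3 : (64000000 : ℝ) ≤ (finrank ℝ V : ℝ) ^ 3 := by
    have := pow_le_pow_left₀ (by norm_num) hmR 3
    norm_num at this
    exact this
  have hm30 : (0 : ℝ) < (finrank ℝ V : ℝ) ^ 3 := by positivity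
  refine odd_core (by omega) hV S hfar
    (gp := 1 / (3 * (finrank ℝ V : ℝ) ^ 3)) (h1 := 500 / (3 * (finrank ℝ V : ℝ) ^ 3))
    (d1 := 6 / (finrank ℝ V : ℝ)) le_rfl (fun N b j hd => ?_) ?_ le_rfl
    (H742.boxLaw_400 hm S.hW S.hF S.hmin)
  · by_cases h1 : 2 * lamM (finrank ℝ V) * (sphereVol (finrank ℝ V) / (volM V F).real univ)
        + 1 / (3 * (finrank ℝ V : ℝ) ^ 3) ≤ 1
    · exact Or.inl h1
    · push Not at h1
      have h2 : H728.hh (nrm (volM V F)) (Matrix.diagonal j) (co b F) (co b N)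
          ≤ 500 / (3 * (finrank ℝ V : ℝ) ^ 3) := by
        by_contra hc
        push Not at hc
        refine absurd (hnear N b j hd (1 / (3 * (finrank ℝ V : ℝ) ^ 3)) ?_ ?_) (not_le.2 h1)
        · have e : 500 / (3 * (finrank ℝ V : ℝ) ^ 3)
              = 500 * (1 / (3 * (finrank ℝ V : ℝ) ^ 3)) := by ring
          rw [e] at hc
          linarith
        · rw [div_le_div_iff₀ (by positivity) (by norm_num)]
          linarith
      exact Or.inr ⟨h2, hdev N b j hd h2 h1⟩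
  · rw [div_le_div_iff₀ (by positivity) hm30]
    linarith

end

end Vale.Agent.N224
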