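import Vale.Agent.P224.R2.H176.G.Full

/-!
Rigidity: a minimal hypersurface whose normal is a linear function of the position is a Clifford
product, and the balanced product is the only one of least volume.
-/

namespace Vale.Agent.N224

open MeasureTheory Set Filter Function Real Module Vale.Agent.P224 Vale.Agent.P224.RIG
  Vale.Agent.P224.R2.H728
open scoped Topology RealInnerProductSpace ContDiff Manifold ENNReal

set_option linter.unusedSectionVars false

/-- the strict entropy inequality -/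
theorem entropy_lt {u : ℝ} (h0 : 0 < u) (h1 : u < 1) :
    u ^ 2 < (1 + u) * log (1 + u) + (1 - u) * log (1 - u) := by
  have hd : ∀ t ∈ Ico (0 : ℝ) 1, HasDerivAt
      (fun t : ℝ => (1 + t) * log (1 + t) + (1 - t) * log (1 - t) - t ^ 2)
      (log (1 + t) - log (1 - t) - 2 * t) t := by
    rintro t ⟨ht0, ht1⟩
    have a1 : HasDerivAt (fun t : ℝ => 1 + t) 1 t := (hasDerivAt_id t).const_add 1
    have a2 : HasDerivAt (fun t : ℝ => 1 - t) (-1) t := (hasDerivAt_id t).const_sub 1
    have b1 := a1.mul (a1.log (by linarith))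
    have b2 := a2.mul (a2.log (by linarith))
    have b3 : HasDerivAt (fun t : ℝ => t ^ 2) (2 * t) t := by
      simpa using hasDerivAt_pow 2 t
    have b4 := (b1.add b2).sub b3
    have c1 : (1 + t) ≠ 0 := by linarith
    have c2 : (1 - t) ≠ 0 := by linarith
    have e : 1 * log (1 + t) + (1 + t) * (1 / (1 + t))
        + (-1 * log (1 - t) + (1 - t) * (-1 / (1 - t)))
        - 2 * t = log (1 + t) - log (1 - t) - 2 * t := by
      field_simp
      ring
    rw [← e]
    exact b4
  have hmono : StrictMonoOn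
      (fun t : ℝ => (1 + t) * log (1 + t) + (1 - t) * log (1 - t) - t ^ 2) (Ico (0 : ℝ) 1) := by
    apply strictMonoOn_of_deriv_pos (convex_Ico 0 1)
    · exact fun t ht => (hd t ht).continuousAt.continuousWithinAt
    · intro t ht
      rw [interior_Ico] at ht
      rw [(hd t ⟨ht.1.le, ht.2⟩).deriv]
      have hs := Real.hasSum_log_sub_log_of_abs_lt_one (x := t)
        (by rw [abs_of_pos ht.1]; exact ht.2)
      have := hs.summable.sum_le_tsum (Finset.range 2) (fun i _ => by
        have := ht.1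
        positivity)
      rw [hs.tsum_eq] at this
      simp only [Finset.sum_range_succ, Finset.sum_range_zero] at this
      have h3 : 0 < t ^ 3 := pow_pos ht.1 3
      norm_num at this
      linarith
  have h := hmono (left_mem_Ico.2 one_pos) ⟨h0.le, h1⟩ h0
  simp at h
  linarith

theorem lg_convex_lt {n : ℕ} (hn : 1 ≤ n) : 2 * lg (n + 1) < lg n + lg (n + 2) := by
  have hn' : (1 : ℝ) ≤ n := by exact_mod_cast hn
  have hK : (0 : ℝ) < (n : ℝ) + 1 := by linarith
  have e := entropy_lt (u := 1 / ((n : ℝ) + 1)) (by positivity) (by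
    rw [div_lt_one hK]; linarith)
  have e1 : log (1 + 1 / ((n : ℝ) + 1)) = log ((n : ℝ) + 2) - log ((n : ℝ) + 1) := by
    rw [← log_div (by linarith) (by linarith)]
    congr 1
    field_simp
    ring
  have e2 : log (1 - 1 / ((n : ℝ) + 1)) = log (n : ℝ) - log ((n : ℝ) + 1) := by
    rw [← log_div (by linarith) (by linarith)]
    congr 1
    field_simp
    ring
  rw [e1, e2] at e
  have hx : (0 : ℝ) < ((n : ℝ) + 1) / 2 := by linarith
  have hg := gamma_ratio hx
  have g0 : 0 < Gamma (((n : ℝ) + 1) / 2) := Gamma_pos_of_pos hx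
  have g1 : 0 < Gamma (((n : ℝ) + 1) / 2 + 1) := Gamma_pos_of_pos (by linarith)
  have g2 : 0 < Gamma (((n : ℝ) + 1) / 2 + 1 / 2) := Gamma_pos_of_pos (by linarith)
  have hl := Real.log_le_log (by positivity) hg
  rw [log_mul (exp_pos _).ne' (by positivity), log_exp, log_mul g0.ne' g1.ne', log_pow] at hl
  have e3 : ((n : ℝ) + 1) / 2 + 1 / 2 = (((n + 1 : ℕ) : ℝ) + 1) / 2 := by push_cast; ring
  have e4 : ((n : ℝ) + 1) / 2 + 1 = (((n + 2 : ℕ) : ℝ) + 1) / 2 := by push_cast; ring
  rw [e3, e4] at hl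
  have e5 : (1 : ℝ) / (4 * (((n : ℝ) + 1) / 2)) = 1 / (2 * ((n : ℝ) + 1)) := by
    field_simp
    ring
  rw [e5] at hl
  have e6 := mul_lt_mul_of_pos_left e hx
  have e7 : ((n : ℝ) + 1) / 2 * (1 / ((n : ℝ) + 1)) ^ 2 = 1 / (2 * ((n : ℝ) + 1)) := by
    field_simp
  have e8 : ((n : ℝ) + 1) / 2 * ((1 + 1 / ((n : ℝ) + 1)) * (log ((n : ℝ) + 2) - log ((n : ℝ) + 1)) +
      (1 - 1 / ((n : ℝ) + 1)) * (log (n : ℝ) - log ((n : ℝ) + 1))) =
      ((n : ℝ) + 2) / 2 * log ((n : ℝ) + 2) + (n : ℝ) / 2 * log n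
        - ((n : ℝ) + 1) * log ((n : ℝ) + 1) := by
    field_simp
    ring
  rw [e7, e8] at e6
  unfold lg
  push_cast at hl ⊢
  linarith

/-- one step towards the middle decreases the volume -/
theorem cliffordVol_step_lt {m k : ℕ} (hk : 1 ≤ k) (hkm : 2 * k + 2 ≤ m) :
    cliffordVol m (k + 1) < cliffordVol m k := by
  rw [cliffordVol_eq_exp hk (by omega), cliffordVol_eq_exp (by omega) (by omega), exp_lt_exp]
  have h := lg_incr (a := k + 1) (b := m - (k + 1)) (by omega) (by omega)
  have h2 := lg_convex_lt hk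
  have e : m - (k + 1) + 1 = m - k := by omega
  rw [e] at h
  have e2 : k + 1 + 1 = k + 2 := rfl
  rw [e2] at h
  linarith

/-- only the balanced products have the least volume -/
theorem balanced {m k : ℕ} (hk : 1 ≤ k) (hkm : k < m)
    (h : cliffordVol m k ≤ leastClifford m) : k = m / 2 ∨ m - k = m / 2 := by
  have key : ∀ l : ℕ, 1 ≤ l → l < m / 2 → leastClifford m < cliffordVol m l := by
    intro l h1 h2
    exact lt_of_le_of_lt (leastClifford_le (by omega) (by omega))
      (cliffordVol_step_lt h1 (by omega))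
  by_contra hc
  push Not at hc
  rcases lt_or_ge k (m / 2) with h1 | h1
  · exact absurd (key k hk h1) (not_lt.2 h)
  · have h2 := key (m - k) (by omega) (by omega)
    rw [cliffordVol_symm hk hkm] at h2
    exact absurd h2 (not_lt.2 h)

/-- the least Clifford volume is less than twice the volume of the sphere -/
theorem lc_lt_two {m : ℕ} (hm : 4 ≤ m) : leastClifford m < 2 * sphereVol m := by
  have hS := sphereVol_pos' m
  have h2 : √(2 : ℝ) ≤ 3 / 2 := by
    rw [Real.sqrt_le_left (by norm_num)]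
    norm_num
  have he : ∀ x : ℝ, 0 ≤ x → x ≤ 1 / 4 → Real.exp x ≤ 1.3 := by
    intro x _ hx
    refine (Real.exp_le_exp.2 hx).trans ?_
    have h3 := Real.exp_bound' (x := 1 / 4) (by norm_num) (by norm_num) (n := 3) (by norm_num)
    refine h3.trans ?_
    norm_num [Finset.sum_range_succ, Nat.factorial]
  have key : leastClifford m ≤ 1.95 * sphereVol m := by
    rcases Nat.even_or_odd' m with ⟨k, hk | hk⟩
    · subst hk
      refine even_bound (by omega) ((UG.evenRatio_le (by omega)).trans ?_)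
      have hk' : (2 : ℝ) ≤ k := by
        have : 2 ≤ k := by omega
        exact_mod_cast this
      have h1 : 1 / (8 * (k : ℝ)) ≤ 1 / 4 := by
        apply one_div_le_one_div_of_le (by norm_num)
        linarith
      have h3 := he _ (by positivity) h1
      calc √2 * Real.exp (1 / (8 * (k : ℝ))) ≤ 3 / 2 * 1.3 :=
            mul_le_mul h2 h3 (Real.exp_pos _).le (by norm_num)
        _ = 1.95 := by norm_num
    · subst hk
      refine odd_bound (by omega) ((UG.oddRatio_le' k).trans ?_)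
      have hk' : (0 : ℝ) ≤ k := Nat.cast_nonneg k
      have a1 : 1 / (2 * (k : ℝ) + 1) ≤ 1 / 2 := by
        apply one_div_le_one_div_of_le (by norm_num)
        have : (1 : ℝ) ≤ k := by
          have : 1 ≤ k := by omega
          exact_mod_cast this
        linarith
      have a2 : 1 / (2 * (k : ℝ) + 1) ^ 2 ≤ 1 / 2 := by
        apply one_div_le_one_div_of_le (by norm_num)
        have : (1 : ℝ) ≤ k := by
          have : 1 ≤ k := by omega
          exact_mod_cast this
        nlinarith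
      have h3 := he ((1 / (2 * (k : ℝ) + 1) + 1 / (2 * (k : ℝ) + 1) ^ 2) / 4) (by positivity)
        (by linarith)
      calc √2 * Real.exp ((1 / (2 * (k : ℝ) + 1) + 1 / (2 * (k : ℝ) + 1) ^ 2) / 4)
          ≤ 3 / 2 * 1.3 := mul_le_mul h2 h3 (Real.exp_pos _).le (by norm_num)
        _ = 1.95 := by norm_num
  linarith

section Alg

variable {W X : Type*} [NormedAddCommGroup W] [InnerProductSpace ℝ W] [FiniteDimensional ℝ W]

/-- symmetric pairs come from a symmetric linear map -/
theorem exists_symm {p n : X → W} (h2 : ∀ x y, ⟪n x, p y⟫ = ⟪p x, n y⟫)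
    (hng : ¬ ∃ a : W, a ≠ 0 ∧ ∀ x, ⟪p x, a⟫ = 0) :
    ∃ A : W →ₗ[ℝ] W, A.IsSymmetric ∧ ∀ x, n x = A (p x) := by
  have hspan : Submodule.span ℝ (Set.range p) = ⊤ := by
    by_contra hne
    have hbot : (Submodule.span ℝ (Set.range p))ᗮ ≠ ⊥ := fun hb =>
      hne (Submodule.orthogonal_eq_bot_iff.1 hb)
    obtain ⟨a, ha, ha0⟩ := Submodule.exists_mem_ne_zero_of_ne_bot hbot
    exact hng ⟨a, ha0, fun x => (Submodule.mem_orthogonal _ a).1 ha _
      (Submodule.subset_span ⟨x, rfl⟩)⟩
  set P : (X →₀ ℝ) →ₗ[ℝ] W := Finsupp.linearCombination ℝ p with hP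
  set Q : (X →₀ ℝ) →ₗ[ℝ] W := Finsupp.linearCombination ℝ n with hQ
  have hsurj : LinearMap.range P = ⊤ := by
    rw [hP, Finsupp.range_linearCombination, hspan]
  have e2 : ∀ f g, ⟪Q f, P g⟫ = ⟪P f, Q g⟫ := fun f g => by
    rw [hP, hQ, inner_lc, inner_lc]
    simp only [h2]
  obtain ⟨g, hg⟩ := P.exists_rightInverse_of_surjective hsurj
  have hg' : ∀ w, P (g w) = w := fun w => LinearMap.congr_fun hg w
  have hker : ∀ f, P f = 0 → Q f = 0 := fun f hf => by
    have h := e2 f (g (Q f))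
    rw [hf, inner_zero_left, hg'] at h
    exact inner_self_eq_zero.1 h
  refine ⟨Q ∘ₗ g, fun v w => ?_, fun x => ?_⟩
  · have h := e2 (g v) (g w)
    rw [hg', hg'] at h
    exact h
  · have h : P (Finsupp.single x 1 - g (p x)) = 0 := by
      rw [map_sub, hg', hP, Finsupp.linearCombination_single, one_smul, sub_self]
    have h' := hker _ h
    rw [map_sub, hQ, Finsupp.linearCombination_single, one_smul, sub_eq_zero] at h'
    exact h'

end Alg

section Two

variable {ι Ω : Type*} [Fintype ι] [DecidableEq ι] [MeasurableSpace Ω] {μ : Measure Ω}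
  {m : ℝ} {x N : ι → Ω → ℝ} {j : ι → ℝ}

/-- the second moments of a linear field -/
lemma mom2 (h : T0Data μ m x N) (hj : ∀ a w, N a w = j a * x a w) (a : ι) :
    (m + 1 + j a ^ 2) * ∫ w, x a w * x a w ∂μ = 1 := by
  have h1 := h.r2 a a
  have e : ∫ w, N a w * N a w ∂μ = j a ^ 2 * ∫ w, x a w * x a w ∂μ := by
    rw [← integral_const_mul]
    refine integral_congr_ae (Eventually.of_forall fun w => ?_)
    simp only [hj]
    ring
  rw [e, if_pos rfl] at h1
  linarith

/-- the fourth moments of a linear field -/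
lemma mom4 (h : T0Data μ m x N) (hj : ∀ a w, N a w = j a * x a w) {a c : ι} (hac : a ≠ c) :
    (m + 3 + j a ^ 2 + 2 * (j a * j c)) * ∫ w, x a w * x a w * x c w * x c w ∂μ
      = ∫ w, x c w * x c w ∂μ := by
  have h1 := h.r6 a a c c
  have e1 : ∫ w, N a w * N a w * x c w * x c w ∂μ
      = j a ^ 2 * ∫ w, x a w * x a w * x c w * x c w ∂μ := by
    rw [← integral_const_mul]
    refine integral_congr_ae (Eventually.of_forall fun w => ?_)
    simp only [hj]
    ring
  have e2 : ∫ w, N a w * N c w * x a w * x c w ∂μ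
      = j a * j c * ∫ w, x a w * x a w * x c w * x c w ∂μ := by
    rw [← integral_const_mul]
    refine integral_congr_ae (Eventually.of_forall fun w => ?_)
    simp only [hj]
    ring
  rw [e1, e2, if_pos rfl, if_neg hac] at h1
  linarith

/-- two weights are equal up to sign or have product `-1` -/
lemma weights (h : T0Data μ m x N) (hj : ∀ a w, N a w = j a * x a w) (a c : ι) :
    j a ^ 2 = j c ^ 2 ∨ j a * j c = -1 := by
  rcases eq_or_ne a c with rfl | hac
  · exact Or.inl rfl
  have k1 := mom4 h hj hac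
  have k2 := mom4 h hj hac.symm
  have e : ∫ w, x c w * x c w * x a w * x a w ∂μ = ∫ w, x a w * x a w * x c w * x c w ∂μ :=
    integral_congr_ae (Eventually.of_forall fun w => by ring)
  rw [e] at k2
  have m1 := mom2 h hj a
  have m2 := mom2 h hj c
  set E := ∫ w, x a w * x a w * x c w * x c w ∂μ
  rw [← k1] at m2
  rw [← k2] at m1
  have hE : E ≠ 0 := by
    intro h0
    rw [h0] at m1
    simp at m1
  have h3 : E * ((j c ^ 2 - j a ^ 2) * (2 + 2 * (j a * j c))) = 0 := by
    linear_combination m2 - m1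
  rcases mul_eq_zero.1 h3 with h4 | h4
  · exact absurd h4 hE
  · rcases mul_eq_zero.1 h4 with h5 | h5
    · left
      linarith
    · right
      linarith

/-- there are two weights, `α` and `-1 / α` -/
lemma two_weights [Nonempty Ω] (h : T0Data μ m x N)
    (hj : ∀ a w, N a w = j a * x a w) :
    ∃ α : ℝ, 0 < α ∧ ∀ a, j a = α ∨ j a = -(1 / α) := by
  obtain ⟨w⟩ := ‹Nonempty Ω›
  have s1 : ∑ a, j a * x a w ^ 2 = 0 := by
    rw [← h.xN w]
    exact Finset.sum_congr rfl fun a _ => by rw [hj]; ring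
  have s2 : ∑ a, j a ^ 2 * x a w ^ 2 = 1 := by
    rw [← h.uN w]
    exact Finset.sum_congr rfl fun a _ => by rw [hj]; ring
  have sgn : ∀ σ : ℝ, σ = 1 ∨ σ = -1 → ∃ a, 0 < σ * j a := by
    intro σ hσ
    by_contra hc
    push Not at hc
    have s3 : ∑ a, -(σ * j a) * x a w ^ 2 = 0 := by
      have : ∑ a, -(σ * j a) * x a w ^ 2 = -σ * ∑ a, j a * x a w ^ 2 := by
        rw [Finset.mul_sum]
        exact Finset.sum_congr rfl fun a _ => by ring
      rw [this, s1, mul_zero]
    have s4 := (Finset.sum_eq_zero_iff_of_nonneg fun a _ =>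
      mul_nonneg (neg_nonneg.2 (hc a)) (sq_nonneg (x a w))).1 s3
    have s5 : ∑ a, j a ^ 2 * x a w ^ 2 = 0 := by
      refine Finset.sum_eq_zero fun a ha => ?_
      have := s4 a ha
      rcases hσ with h1 | h1 <;> rw [h1] at this
      · linear_combination (-j a) * this
      · linear_combination (j a) * this
    rw [s5] at s2
    exact zero_ne_one s2
  obtain ⟨a, ha⟩ := sgn 1 (Or.inl rfl)
  obtain ⟨c, hc⟩ := sgn (-1) (Or.inr rfl)
  rw [one_mul] at ha
  have hc' : j c < 0 := by linarith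
  by_cases hall : ∀ e, j e ^ 2 = j a ^ 2
  · have s6 : j a ^ 2 = 1 := by
      rw [← s2, Finset.sum_congr rfl fun e _ => by rw [hall e], ← Finset.mul_sum, h.ux w, mul_one]
    refine ⟨1, one_pos, fun e => ?_⟩
    have := hall e
    rw [s6] at this
    rcases (sq_eq_one_iff (a := j e)).1 this with h1 | h1
    · exact Or.inl h1
    · right
      rw [h1]
      norm_num
  · push Not at hall
    obtain ⟨d, hd⟩ := hall
    have hda : j d * j a = -1 := (weights h hj d a).resolve_left hd
    refine ⟨j a, ha, fun e => ?_⟩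
    rcases weights h hj e a with h1 | h1
    · rcases sq_eq_sq_iff_eq_or_eq_neg.1 h1 with h2 | h2
      · exact Or.inl h2
      · exfalso
        rcases weights h hj e d with h3 | h3
        · exact hd (by rw [← h3, h1])
        · rw [h2] at h3
          linarith
    · right
      field_simp
      linarith

/-- the multiplicities of the two weights -/
lemma card_weights (h : T0Data μ m x N) (hm : 0 < m) (hj : ∀ a w, N a w = j a * x a w)
    {α : ℝ} (hα : 0 < α) (S : Finset ι) (hS : ∀ a, j a = if a ∈ S then α else -(1 / α)) :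
    α ^ 2 * ((S.card : ℝ) - 1) = (Sᶜ.card : ℝ) - 1 := by
  have hp := h.prob
  have s1 : ∑ a, j a * ∫ w, x a w * x a w ∂μ = 0 := by
    have e : ∑ a, j a * ∫ w, x a w * x a w ∂μ = ∫ w, ∑ a, x a w * N a w ∂μ := by
      rw [integral_finsetSum _ fun a _ => ((h.bx a).mul (h.bN a)).int]
      refine Finset.sum_congr rfl fun a _ => ?_
      rw [← integral_const_mul]
      refine integral_congr_ae (Eventually.of_forall fun w => ?_)
      simp only [hj]
      ring
    rw [e]
    simp only [h.xN, integral_zero]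
  have s2 : ∀ a, j a * ∫ w, x a w * x a w ∂μ
      = if a ∈ S then α / (m + 1 + α ^ 2) else -(α / ((m + 1) * α ^ 2 + 1)) := by
    intro a
    have h1 := mom2 h hj a
    have h2 := hS a
    split_ifs at h2 ⊢ with ha
    · rw [h2] at h1 ⊢
      rw [eq_div_iff (by positivity)]
      linear_combination α * h1
    · rw [h2] at h1 ⊢
      have h3 : ((m + 1) * α ^ 2 + 1) * ∫ w, x a w * x a w ∂μ = α ^ 2 := by
        have h4 : (m + 1) * α ^ 2 + 1 = α ^ 2 * (m + 1 + (-(1 / α)) ^ 2) := by
          field_simp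
        rw [h4, mul_assoc, h1, mul_one]
      have h6 : 0 < (m + 1) * α ^ 2 + 1 := by positivity
      have h5 : ∫ w, x a w * x a w ∂μ = α ^ 2 / ((m + 1) * α ^ 2 + 1) := by
        rw [eq_div_iff h6.ne']
        linarith
      rw [h5]
      field_simp
  rw [Finset.sum_congr rfl fun a _ => s2 a, Finset.sum_ite, Finset.sum_const, Finset.sum_const,
    nsmul_eq_mul, nsmul_eq_mul] at s1
  have c1 : (Finset.univ.filter fun a => a ∈ S) = S := by ext a; simp
  have c2 : (Finset.univ.filter fun a => a ∉ S) = Sᶜ := by ext a; simp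
  rw [c1, c2] at s1
  have c3 : (S.card : ℝ) + (Sᶜ.card : ℝ) = m + 2 := by
    rw [← h.card, ← Finset.card_add_card_compl S]
    push_cast
    rfl
  set p : ℝ := (S.card : ℝ)
  set q : ℝ := (Sᶜ.card : ℝ)
  have s3 : p * ((m + 1) * α ^ 2 + 1) = q * (m + 1 + α ^ 2) := by
    have h1 : 0 < m + 1 + α ^ 2 := by positivity
    have h2 : 0 < (m + 1) * α ^ 2 + 1 := by positivity
    have h3 : p * (α / (m + 1 + α ^ 2)) = q * (α / ((m + 1) * α ^ 2 + 1)) := by linarith
    rw [← mul_div_assoc, ← mul_div_assoc, div_eq_div_iff h1.ne' h2.ne'] at h3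
    have h4 : α * (p * ((m + 1) * α ^ 2 + 1)) = α * (q * (m + 1 + α ^ 2)) := by linarith
    exact mul_left_cancel₀ hα.ne' h4
  have s4 : (m + 2) * (α ^ 2 * (p - 1)) = (m + 2) * (q - 1) := by
    linear_combination s3 + (α ^ 2 - 1) * c3
  exact mul_left_cancel₀ (by positivity) s4

end Two

section Geo

variable {V W M : Type*} [NormedAddCommGroup V] [InnerProductSpace ℝ V] [FiniteDimensional ℝ V]
  [NormedAddCommGroup W] [InnerProductSpace ℝ W] [FiniteDimensional ℝ W]
  [TopologicalSpace M] [ChartedSpace V M]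
  [MeasurableSpace V] [BorelSpace V] [MeasurableSpace M] [BorelSpace M]
  [MeasurableSpace W] [BorelSpace W] [IsManifold 𝓘(ℝ, V) ∞ M]
  [CompactSpace M] [T2Space M] [ConnectedSpace M]

/-- a hypersurface with symmetric pairs lies in a minimal Clifford product -/
theorem sub_clifford (hm : 1 ≤ finrank ℝ V) (hW : finrank ℝ W = finrank ℝ V + 2)
    {F : M → W} (hF : SphImm V F) (hmin : ∀ x n, IsUnitNormal V F x n → meanCurv V F x n = 0)
    (hng : ¬ ∃ a : W, a ≠ 0 ∧ ∀ x, ⟪F x, a⟫ = 0)
    {N : M → W} (hNs : ContMDiff 𝓘(ℝ, V) 𝓘(ℝ, W) ∞ N) (hN : ∀ x, IsUnitNormal V F x (N x))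
    (hsym : ∀ x y, ⟪N x, F y⟫ = ⟪F x, N y⟫) :
    ∃ (k : ℕ) (K : Submodule ℝ W), 1 ≤ k ∧ k < finrank ℝ V ∧ finrank ℝ K = k + 1 ∧
      ∀ x, ‖K.starProjection (F x)‖ ^ 2 = (k : ℝ) / finrank ℝ V ∧
        ‖F x - K.starProjection (F x)‖ ^ 2 = ((finrank ℝ V - k : ℕ) : ℝ) / finrank ℝ V := by
  obtain ⟨A, hA, hAN⟩ := exists_symm hsym hng
  set m := finrank ℝ V with hmd
  set b := hA.eigenvectorBasis hW with hb
  set j := hA.eigenvalues hW with hjd
  have hj : ∀ a x, ⟪N x, b a⟫ = j a * ⟪F x, b a⟫ := by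
    intro a x
    rw [hAN, hA, hb, hA.apply_eigenvectorBasis hW a, real_inner_smul_right]
    rfl
  have hT := t0Data_of_min hm hW hF hmin hNs hN b
  have hmR : (1 : ℝ) ≤ m := by exact_mod_cast hm
  obtain ⟨α, hα, hw⟩ := two_weights hT hj
  set S : Finset (Fin (m + 2)) := Finset.univ.filter fun a => j a = α with hSd
  have hS : ∀ a, j a = if a ∈ S then α else -(1 / α) := by
    intro a
    split_ifs with ha
    · exact (Finset.mem_filter.1 ha).2
    · exact (hw a).resolve_left fun h1 => ha (Finset.mem_filter.2 ⟨Finset.mem_univ _, h1⟩)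
  have hc := card_weights hT (by linarith) hj hα S hS
  have c3 : S.card + Sᶜ.card = m + 2 := by
    rw [Finset.card_add_card_compl S, Fintype.card_fin]
  have c3R : (S.card : ℝ) + (Sᶜ.card : ℝ) = m + 2 := by exact_mod_cast c3
  have hα2 : 0 < α ^ 2 := by positivity
  have hp : 1 < (S.card : ℝ) := by
    by_contra hcon
    push Not at hcon
    have : α ^ 2 * ((S.card : ℝ) - 1) ≤ 0 :=
      mul_nonpos_of_nonneg_of_nonpos hα2.le (by linarith)
    linarith
  have hq : 1 < (Sᶜ.card : ℝ) := by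
    have : 0 < α ^ 2 * ((S.card : ℝ) - 1) := mul_pos hα2 (by linarith)
    linarith
  have hp' : 1 < S.card := by exact_mod_cast hp
  have hq' : 1 < Sᶜ.card := by exact_mod_cast hq
  have hK : finrank ℝ (outS b S) = Sᶜ.card - 1 + 1 := by
    rw [finrank_outS, Fintype.card_subtype_compl, Fintype.card_fin, Fintype.card_coe]
    omega
  refine ⟨Sᶜ.card - 1, outS b S, by omega, by omega, hK, fun x => ?_⟩
  have h1 : ‖F x‖ ^ 2 = 1 := by rw [hF.unit, one_pow]
  rw [norm_eq_basis b] at h1
  have h2 : ∑ a, j a * ⟪F x, b a⟫ ^ 2 = 0 := by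
    rw [← hT.xN x]
    exact Finset.sum_congr rfl fun a _ => by rw [hj]; ring
  have h3 : ‖(outS b S).starProjection (F x)‖ ^ 2
      = ∑ i, (if i ∈ S then 0 else ⟪F x, b i⟫) ^ 2 := by
    rw [proj_outS, norm_sum_basis]
  have h4 := norm_sub_outS b S (F x)
  have e1 : ∑ i, ⟪F x, b i⟫ ^ 2 = ‖(outS b S).starProjection (F x)‖ ^ 2
      + ‖F x - (outS b S).starProjection (F x)‖ ^ 2 := by
    rw [h3, h4, ← Finset.sum_add_distrib]
    refine Finset.sum_congr rfl fun i _ => ?_
    split_ifs <;> ring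
  have e2 : ∑ i, j i * ⟪F x, b i⟫ ^ 2
      = -(1 / α) * ‖(outS b S).starProjection (F x)‖ ^ 2
      + α * ‖F x - (outS b S).starProjection (F x)‖ ^ 2 := by
    rw [h3, h4, Finset.mul_sum, Finset.mul_sum, ← Finset.sum_add_distrib]
    refine Finset.sum_congr rfl fun i _ => ?_
    rw [hS i]
    split_ifs <;> ring
  rw [e1] at h1
  rw [e2] at h2
  set u := ‖(outS b S).starProjection (F x)‖ ^ 2
  set v := ‖F x - (outS b S).starProjection (F x)‖ ^ 2
  have h5 : u = α ^ 2 * v := by
    have h6 : α * (-(1 / α) * u + α * v) = -u + α ^ 2 * v := by field_simp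
    rw [h2, mul_zero] at h6
    linarith
  have c1 : ((Sᶜ.card - 1 : ℕ) : ℝ) = (Sᶜ.card : ℝ) - 1 := by
    rw [Nat.cast_sub hq'.le, Nat.cast_one]
  have c2 : ((m - (Sᶜ.card - 1) : ℕ) : ℝ) = (S.card : ℝ) - 1 := by
    rw [show m - (Sᶜ.card - 1) = S.card - 1 by omega, Nat.cast_sub hp'.le, Nat.cast_one]
  have hm0 : (m : ℝ) ≠ 0 := by positivity
  have h7 : v * m = (S.card : ℝ) - 1 := by
    have h8 : (m : ℝ) = ((S.card : ℝ) - 1) * (1 + α ^ 2) := by linear_combination -c3R - hc
    rw [h8]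
    linear_combination ((S.card : ℝ) - 1) * h1 - ((S.card : ℝ) - 1) * h5
  rw [c1, c2, eq_div_iff hm0, eq_div_iff hm0]
  exact ⟨by linear_combination (m : ℝ) * h1 - h7 - c3R, h7⟩

/-- **Rigidity**: an embedded minimal hypersurface with symmetric pairs and at most the least
Clifford volume is the balanced Clifford product. -/
theorem rigid_of_sym (hm : 2 ≤ finrank ℝ V) (hW : finrank ℝ W = finrank ℝ V + 2)
    {F : M → W} (hF : SphImm V F) (hmin : ∀ x n, IsUnitNormal V F x n → meanCurv V F x n = 0)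
    (hng : ¬ ∃ a : W, a ≠ 0 ∧ ∀ x, ⟪F x, a⟫ = 0) (hinj : Injective F)
    {N : M → W} (hNs : ContMDiff 𝓘(ℝ, V) 𝓘(ℝ, W) ∞ N) (hN : ∀ x, IsUnitNormal V F x (N x))
    (hsym : ∀ x y, ⟪N x, F y⟫ = ⟪F x, N y⟫)
    (hvol : (volM V F).real univ ≤ leastClifford (finrank ℝ V)) :
    ∃ U : Submodule ℝ W, finrank ℝ U = finrank ℝ V / 2 + 1 ∧
      range F = {z | ‖U.starProjection z‖ ^ 2 = ((finrank ℝ V / 2 : ℕ) : ℝ) / finrank ℝ V ∧
        ‖z - U.starProjection z‖ ^ 2
          = ((finrank ℝ V - finrank ℝ V / 2 : ℕ) : ℝ) / finrank ℝ V} := by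
  obtain ⟨k, K, hk1, hkm, hK, hx⟩ := sub_clifford (by omega) hW hF hmin hng hNs hN hsym
  set m := finrank ℝ V with hmd
  have hv := volM_clifford hmd.symm hk1 hkm hW K hK hF hinj hx
  have hc0 : 0 ≤ cliffordVol m k :=
    (RIG.leastClifford_nonneg m).trans (leastClifford_le hk1 hkm)
  rw [measureReal_def, hv, ENNReal.toReal_ofReal hc0] at hvol
  have main : ∀ U : Submodule ℝ W, finrank ℝ U = m / 2 + 1 →
      (∀ x, ‖U.starProjection (F x)‖ ^ 2 = ((m / 2 : ℕ) : ℝ) / m ∧
        ‖F x - U.starProjection (F x)‖ ^ 2 = ((m - m / 2 : ℕ) : ℝ) / m) →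
      range F = {z | ‖U.starProjection z‖ ^ 2 = ((m / 2 : ℕ) : ℝ) / m ∧
        ‖z - U.starProjection z‖ ^ 2 = ((m - m / 2 : ℕ) : ℝ) / m} := by
    intro U hU hUx
    have hm0 : (0 : ℝ) < m := by
      have : 0 < m := by omega
      exact_mod_cast this
    have h1a : ((m - m / 2 : ℕ) : ℝ) / m = 1 - ((m / 2 : ℕ) : ℝ) / m := by
      rw [Nat.cast_sub (by omega)]
      field_simp
    have hset : {z | ‖U.starProjection z‖ ^ 2 = ((m / 2 : ℕ) : ℝ) / m ∧
        ‖z - U.starProjection z‖ ^ 2 = ((m - m / 2 : ℕ) : ℝ) / m}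
        = PrdA (((m / 2 : ℕ) : ℝ) / m) U := by
      ext z
      have h' : Uᗮ.starProjection z = z - U.starProjection z := by
        rw [Submodule.starProjection_orthogonal_val]
      simp only [PrdA, Set.mem_ofPred_eq, h', h1a]
    have hU' := U.finrank_add_finrank_orthogonal
    have p1 : (0 : ℝ) < ((m / 2 : ℕ) : ℝ) := by
      have : 0 < m / 2 := by omega
      exact_mod_cast this
    have p2 : ((m / 2 : ℕ) : ℝ) < m := by
      have : m / 2 < m := by omega
      exact_mod_cast this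
    rw [hset]
    refine range_eq_prdA (by positivity) ((div_lt_one hm0).2 p2) hW U (by omega) (by omega) hF
      fun x => ?_
    rw [← hset]
    exact hUx x
  rcases balanced hk1 hkm hvol with h1 | h1
  · subst h1
    exact ⟨K, hK, main K hK hx⟩
  · have hK' : finrank ℝ Kᗮ = m / 2 + 1 := by
      have := K.finrank_add_finrank_orthogonal
      omega
    refine ⟨Kᗮ, hK', main Kᗮ hK' fun x => ?_⟩
    rw [Submodule.starProjection_orthogonal_val, sub_sub_cancel, (hx x).1, (hx x).2, h1,
      show m - m / 2 = k by omega]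
    exact ⟨rfl, rfl⟩

/-- a continuous nonnegative function of pairs with integral zero vanishes -/
lemma pair_zero (hW : finrank ℝ W = finrank ℝ V + 2) {F : M → W} (hF : SphImm V F)
    {f : M × M → ℝ} (hf : Continuous f) (h0 : ∀ q, 0 ≤ f q)
    (hi : ∫ q, f q ∂((volM V F).prod (volM V F)) ≤ 0) (q : M × M) : f q = 0 := by
  have hfin : IsFiniteMeasure (volM V F) := isFiniteMeasure_volM hF
  have hop : (volM V F).IsOpenPosMeasure :=
    ⟨fun U hU hne => (volM_pos_of_isOpen hW hF hU hne).ne'⟩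
  have : SecondCountableTopology M := ChartedSpace.secondCountable_of_sigmaCompact V M
  have hint : Integrable f ((volM V F).prod (volM V F)) :=
    hf.integrable_of_hasCompactSupport (HasCompactSupport.of_compactSpace f)
  have h1 : ∫ q, f q ∂((volM V F).prod (volM V F)) = 0 :=
    le_antisymm hi (integral_nonneg h0)
  have h2 := (integral_eq_zero_iff_of_nonneg h0 hint).1 h1
  exact congrFun ((hf.ae_eq_iff_eq _ continuous_zero).1 h2) q

end Geo

end Vale.Agent.N224
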