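import Vale.Agent.N224.Rig

/-!
The spectral inequality in odd dimension with a slack in the antisymmetric part.
-/

namespace Vale.Agent.N224

open MeasureTheory Matrix Finset Filter Vale.Agent.P224 Vale.Agent.P224.R2
  Vale.Agent.P224.R2.H742 Vale.Agent.P224.R2.H728
open Vale.Agent.P224.R2.H582 (E2 Xk nrm co E2_nrm ip_co)
open scoped RealInnerProductSpace

set_option linter.unusedSectionVars false

/-- the weight of the slack -/
noncomputable def dl (m : ℝ) : ℝ := (m - 3) / (m ^ 2 - 1) / 2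

lemma dl_nonneg {m : ℝ} (hm : 3 ≤ m) : 0 ≤ dl m :=
  div_nonneg (div_nonneg (by linarith) (by nlinarith)) zero_le_two

lemma well_zeroS {m ν : ℝ} (hm : 3 ≤ m) :
    vm m + 2 * dl m * (ν * (1 - ν)) ≤ F m ν 0 - l1 m * ν := by
  have a1 : m + 1 ≠ 0 := by linarith
  have a2 : m - 1 ≠ 0 := by linarith
  have key : F m ν 0 - l1 m * ν - vm m - 2 * dl m * (ν * (1 - ν))
      = ν ^ 2 * ((((2 * m - 1) * (m + 2) * m + 4 * (m + 2)) * (m - 1) - (3 * m ^ 2 + 9 * m - 8))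
            / ((m + 1) * (m - 1))) := by
    unfold F al be l1 vm w1 w2 dl
    have e3 : m ^ 2 - 1 = (m + 1) * (m - 1) := by ring
    rw [e3]
    field_simp
    ring
  have p2 : 0 ≤ (((2 * m - 1) * (m + 2) * m + 4 * (m + 2)) * (m - 1) - (3 * m ^ 2 + 9 * m - 8))
      / ((m + 1) * (m - 1)) := by
    refine div_nonneg ?_ (by nlinarith)
    nlinarith [mul_nonneg (sub_nonneg.2 hm) (sub_nonneg.2 hm),
      mul_nonneg (mul_nonneg (sub_nonneg.2 hm) (sub_nonneg.2 hm)) (sub_nonneg.2 hm)]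
  have := mul_nonneg (sq_nonneg ν) p2
  linarith

lemma interpS {m ν y z s a : ℝ} (hm : 3 ≤ m) (hs : s ^ 2 = 1) (hz0 : 0 ≤ z) (hzy : z ≤ y)
    (hy : y ^ 2 = (m - 1) * ν * (1 - ν)) (ha : a ≤ vm m)
    (h2 : a ≤ F m ν (s * y) - l1 m * ν - l2 m * (s * y)) :
    a + dl m * (ν * (1 - ν) - z ^ 2 / (m - 1)) ≤ F m ν (s * z) - l1 m * ν - l2 m * (s * z) := by
  have h1 := well_zeroS (ν := ν) hm
  have hd := dl_nonneg hm
  have hm1 : 0 < m - 1 := by linarith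
  have eν : ν * (1 - ν) = y ^ 2 / (m - 1) := by
    rw [hy]
    field_simp
  rcases eq_or_lt_of_le (hz0.trans hzy) with h0 | hy0
  · have hz : z = 0 := le_antisymm (h0 ▸ hzy) hz0
    rw [eν, ← h0] at h1 ⊢
    rw [hz]
    simp only [mul_zero, ne_eq, OfNat.ofNat_ne_zero, not_false_eq_true, zero_pow, zero_div,
      sub_zero, add_zero] at h1 ⊢
    linarith
  have e : y * (F m ν (s * z) - l1 m * ν - l2 m * (s * z))
      = (y - z) * (F m ν 0 - l1 m * ν) + z * (F m ν (s * y) - l1 m * ν - l2 m * (s * y))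
      + (-(w1 m * (2 / (m ^ 2 - 1)) ^ 2 - w2 m / (m - 1))) * (s ^ 2 * (y * z * (y - z))) := by
    unfold F
    ring
  rw [hs, one_mul] at e
  have h3 : 0 ≤ (-(w1 m * (2 / (m ^ 2 - 1)) ^ 2 - w2 m / (m - 1))) * (y * z * (y - z)) :=
    mul_nonneg (neg_nonneg.2 (lead_nonpos hm)) (mul_nonneg (by positivity) (sub_nonneg.2 hzy))
  have h4 := mul_le_mul_of_nonneg_left h1 (sub_nonneg.2 hzy)
  have h5 := mul_le_mul_of_nonneg_left h2 hz0
  have h6 := mul_le_mul_of_nonneg_left ha (sub_nonneg.2 hzy)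
  have h7 : y * (dl m * (ν * (1 - ν) - z ^ 2 / (m - 1)))
      ≤ (y - z) * (2 * dl m * (ν * (1 - ν))) := by
    rw [eν]
    have e2 : (y - z) * (2 * dl m * (y ^ 2 / (m - 1)))
        - y * (dl m * (y ^ 2 / (m - 1) - z ^ 2 / (m - 1)))
        = dl m / (m - 1) * (y * (y - z) ^ 2) := by
      field_simp
      ring
    have : 0 ≤ dl m / (m - 1) * (y * (y - z) ^ 2) := by positivity
    linarith
  refine le_of_mul_le_mul_left ?_ hy0
  rw [e]
  linarith

lemma F_slack {m ν z : ℝ} (hm : 3 ≤ m) (h0 : 0 ≤ ν) (h1 : ν ≤ 1)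
    (hz : z ^ 2 ≤ (m - 1) * ν * (1 - ν)) :
    (if 0 < z then vp m else vm m) + dl m * (ν * (1 - ν) - z ^ 2 / (m - 1))
      ≤ F m ν z - l1 m * ν - l2 m * z := by
  have hn : 0 ≤ (m - 1) * ν * (1 - ν) :=
    mul_nonneg (mul_nonneg (by linarith) h0) (by linarith)
  have hy := Real.sq_sqrt hn
  split_ifs with h
  · have := interpS (s := 1) hm (by norm_num) h.le (Real.le_sqrt_of_sq_le hz) hy (vp_le_vm hm)
      (by rw [one_mul]; exact well_pos hm h0 h1 (Real.sqrt_nonneg _) hy)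
    rwa [one_mul] at this
  · have := interpS (s := -1) (z := -z) hm (by norm_num) (by linarith)
      (Real.le_sqrt_of_sq_le (by rw [neg_sq]; exact hz)) hy le_rfl
      (by rw [neg_one_mul]; exact well_neg hm h0 (Real.sqrt_nonneg _) hy)
    rwa [neg_one_mul, neg_neg, neg_sq] at this

section sums

variable {ι : Type*} [Fintype ι] [DecidableEq ι] {m : ℝ} {ν z : ι → ℝ}

lemma sum_F_geS (hm : 3 ≤ m) (hc : (Fintype.card ι : ℝ) = m + 2)
    (h0 : ∀ i, 0 ≤ ν i) (h1 : ∀ i, ν i ≤ 1)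
    (hz : ∀ i, z i ^ 2 ≤ (m - 1) * ν i * (1 - ν i)) (hs : ∑ i, ν i = 1) (hz0 : ∑ i, z i = 0)
    (hp : ((univ.filter fun i => 0 < z i).card : ℝ) ≤ (m + 1) / 2) :
    tg m + dl m * (1 - ∑ i, ν i ^ 2 - (∑ i, z i ^ 2) / (m - 1)) ≤ ∑ i, F m (ν i) (z i) := by
  set p : ℝ := ((univ.filter fun i => 0 < z i).card : ℝ) with hpd
  have k2 : ∑ i, (if 0 < z i then vp m else vm m) = p * vp m + (m + 2 - p) * vm m := by
    rw [Finset.sum_ite, Finset.sum_const, Finset.sum_const, nsmul_eq_mul, nsmul_eq_mul, ← hpd]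
    congr 2
    have h2 := Finset.card_filter_add_card_filter_not (s := (univ : Finset ι))
      (fun i => 0 < z i)
    have h3 : ((univ.filter fun i => ¬ 0 < z i).card : ℝ)
        = (Fintype.card ι : ℝ) - ((univ.filter fun i => 0 < z i).card : ℝ) := by
      rw [← Finset.card_univ, ← h2]
      push_cast
      ring
    rw [h3, hc]
  have k3 : ∑ i, (F m (ν i) (z i) - l1 m * ν i - l2 m * z i)
      = ∑ i, F m (ν i) (z i) - l1 m := by
    rw [Finset.sum_sub_distrib, Finset.sum_sub_distrib, ← Finset.mul_sum, ← Finset.mul_sum, hs,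
      hz0]
    ring
  have k6 : ∑ i, (ν i * (1 - ν i) - z i ^ 2 / (m - 1))
      = 1 - ∑ i, ν i ^ 2 - (∑ i, z i ^ 2) / (m - 1) := by
    have e : ∀ i, ν i * (1 - ν i) = ν i - ν i ^ 2 := fun i => by ring
    simp_rw [e]
    rw [Finset.sum_sub_distrib, Finset.sum_sub_distrib, ← Finset.sum_div, hs]
  have k4 := Finset.sum_le_sum fun i (_ : i ∈ (univ : Finset ι)) =>
    F_slack hm (h0 i) (h1 i) (hz i)
  rw [Finset.sum_add_distrib, k2, k3, ← Finset.mul_sum, k6] at k4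
  have k5 := vp_le_vm hm
  unfold tg
  nlinarith [mul_nonneg (sub_nonneg.2 hp) (sub_nonneg.2 k5)]

lemma exists_orientS (hm : 3 ≤ m) (hc : (Fintype.card ι : ℝ) = m + 2)
    (ho : Odd (Fintype.card ι)) (h0 : ∀ i, 0 ≤ ν i) (h1 : ∀ i, ν i ≤ 1)
    (hz : ∀ i, z i ^ 2 ≤ (m - 1) * ν i * (1 - ν i)) (hs : ∑ i, ν i = 1) (hz0 : ∑ i, z i = 0) :
    ∃ σ : ℝ, (σ = 1 ∨ σ = -1) ∧ tg m + dl m * (1 - ∑ i, ν i ^ 2 - (∑ i, (σ * z i) ^ 2) / (m - 1))
      ≤ ∑ i, F m (ν i) (σ * z i) := by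
  obtain ⟨q, hq⟩ := ho
  have hqm : (q : ℝ) = (m + 1) / 2 := by
    have : ((2 * q + 1 : ℕ) : ℝ) = m + 2 := by rw [← hq, hc]
    push_cast at this
    linarith
  have hd : Disjoint (univ.filter fun i => 0 < z i) (univ.filter fun i => 0 < -z i) := by
    rw [Finset.disjoint_left]
    intro i h2 h3
    simp only [Finset.mem_filter, Finset.mem_univ, true_and] at h2 h3
    linarith
  have hle : (univ.filter fun i => 0 < z i).card + (univ.filter fun i => 0 < -z i).card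
      ≤ 2 * q + 1 := by
    rw [← Finset.card_union_of_disjoint hd, ← hq]
    exact Finset.card_le_univ _
  rcases le_or_gt (univ.filter fun i => 0 < z i).card q with h | h
  · refine ⟨1, Or.inl rfl, ?_⟩
    simp only [one_mul]
    refine sum_F_geS hm hc h0 h1 hz hs hz0 ?_
    rw [← hqm]
    exact_mod_cast h
  · refine ⟨-1, Or.inr rfl, ?_⟩
    refine sum_F_geS hm hc h0 h1 (fun i => ?_) hs ?_ ?_
    · have : (-1 * z i) ^ 2 = z i ^ 2 := by ring
      rw [this]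
      exact hz i
    · rw [← Finset.mul_sum, hz0, mul_zero]
    · rw [← hqm]
      have : (univ.filter fun i => 0 < -z i).card ≤ q := by omega
      have e : (univ.filter fun i => 0 < -1 * z i) = univ.filter fun i => 0 < -z i := by
        simp
      rw [e]
      exact_mod_cast this

/-- the spectral inequality for symmetric matrices, with the slack -/
theorem spec_matrixS (hm : 3 ≤ m) (hc : (Fintype.card ι : ℝ) = m + 2) (ho : Odd (Fintype.card ι))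
    {P K : Matrix ι ι ℝ} (hK : K.IsSymm) (trP : ∑ i, P i i = 1) (trK : ∑ i, K i i = 0)
    (hb : ∀ v : ι → ℝ, v ⬝ᵥ v = 1 → 0 ≤ v ⬝ᵥ P *ᵥ v ∧ v ⬝ᵥ P *ᵥ v ≤ 1
      ∧ (v ⬝ᵥ K *ᵥ v) ^ 2 ≤ (m - 1) * (v ⬝ᵥ P *ᵥ v) * (1 - v ⬝ᵥ P *ᵥ v)) :
    ∃ σ : ℝ, (σ = 1 ∨ σ = -1) ∧
      tg m + dl m * (1 - ∑ a, ∑ b, P a b ^ 2 - (∑ a, ∑ b, K a b ^ 2) / (m - 1))
      ≤ Ph m (∑ a, ∑ b, P a b ^ 2) (σ * ∑ a, ∑ b, P a b * K a b) (∑ a, ∑ b, K a b ^ 2) := by
  obtain ⟨U, z, h1, h2, h3⟩ := exists_diag hK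
  set Q : Matrix ι ι ℝ := Uᵀ * P * U with hQ
  have hq : ∀ (A : Matrix ι ι ℝ) i,
      (Uᵀ * A * U) i i = (fun a => U a i) ⬝ᵥ A *ᵥ (fun a => U a i) := by
    intro A i
    rw [Matrix.mul_assoc, Matrix.mul_apply]
    simp only [dotProduct, mulVec, Matrix.mul_apply, transpose_apply]
  have hu : ∀ i, (fun a => U a i) ⬝ᵥ (fun a => U a i) = 1 := by
    intro i
    have := congrFun (congrFun h1 i) i
    rw [Matrix.mul_apply] at this
    simpa [dotProduct] using this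
  have hz : ∀ i, z i = (fun a => U a i) ⬝ᵥ K *ᵥ (fun a => U a i) := by
    intro i
    rw [← hq, h3, diagonal_apply_eq]
  have hν : ∀ i, Q i i = (fun a => U a i) ⬝ᵥ P *ᵥ (fun a => U a i) := fun i => hq P i
  have s1 : ∑ i, Q i i = 1 := by
    have := trace_conj h2 P
    simp only [trace, diag_apply] at this
    rw [hQ, this, trP]
  have s2 : ∑ i, z i = 0 := by
    have := trace_conj h2 K
    rw [h3] at this
    simp only [trace, diag_apply, diagonal_apply_eq] at this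
    rw [this, trK]
  obtain ⟨σ, hσ, hF⟩ := exists_orientS (ι := ι) (ν := fun i => Q i i) (z := z) hm hc ho
    (fun i => by rw [hν]; exact (hb _ (hu i)).1) (fun i => by rw [hν]; exact (hb _ (hu i)).2.1)
    (fun i => by rw [hν, hz]; exact (hb _ (hu i)).2.2) s1 s2
  refine ⟨σ, hσ, ?_⟩
  have hσ2 : σ ^ 2 = 1 := by rcases hσ with h | h <;> rw [h] <;> norm_num
  have s3 : ∑ i, σ * z i = 0 := by rw [← Finset.mul_sum, s2, mul_zero]
  rw [sum_F_eq hm hc s1 s3] at hF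
  have e1 : ∑ i, Q i i * (σ * z i) = σ * ∑ a, ∑ b, P a b * K a b := by
    rw [sum_mul_eq_trace, ← trace_conj h2, ← conj_mul h2, h3, ← hQ,
      ← sum_mul_eq_trace, Finset.mul_sum]
    refine Finset.sum_congr rfl fun i _ => ?_
    rw [Finset.sum_eq_single i]
    · rw [diagonal_apply_eq]; ring
    · intro b _ hb
      rw [diagonal_apply_ne _ (Ne.symm hb), mul_zero]
    · intro h; exact absurd (Finset.mem_univ i) h
  have e2 : ∑ i, (σ * z i) ^ 2 = ∑ a, ∑ b, K a b ^ 2 := by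
    rw [sum_sq_eq_trace, ← trace_conj h2, ← conj_mul h2, h3, ← sum_sq_eq_trace]
    refine Finset.sum_congr rfl fun i _ => ?_
    rw [Finset.sum_eq_single i]
    · rw [diagonal_apply_eq, mul_pow, hσ2, one_mul]
    · intro b _ hb
      rw [diagonal_apply_ne _ (Ne.symm hb)]; ring
    · intro h; exact absurd (Finset.mem_univ i) h
  have e3 : ∑ i, Q i i ^ 2 ≤ ∑ a, ∑ b, P a b ^ 2 := by
    rw [sum_sq_eq_trace P, ← trace_conj h2, ← conj_mul h2, ← sum_sq_eq_trace, ← hQ]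
    refine Finset.sum_le_sum fun i _ => ?_
    exact Finset.single_le_sum (f := fun b => Q i b ^ 2) (fun b _ => sq_nonneg _)
      (Finset.mem_univ i)
  rw [e1, e2] at hF
  have h4 := mul_le_mul_of_nonneg_left e3 (dl_nonneg hm)
  have h5 := Ph_mono (T := σ * ∑ a, ∑ b, P a b * K a b) (Z := ∑ a, ∑ b, K a b ^ 2) hm e3
  linarith

end sums

section

variable {ι Ω : Type*} [Fintype ι] [DecidableEq ι] [MeasurableSpace Ω] {μ : Measure Ω}
  {m : ℝ} {x N : ι → Ω → ℝ}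

/-- **The spectral inequality for odd `m`, with the slack.** -/
theorem odd_spectralS (h : T0Data μ m x N) (hm : 3 ≤ m) (ho : Odd (Fintype.card ι)) {r : ℝ}
    (hr : 0 < r) (hr2 : r ^ 2 = m ^ 2 - 1) :
    ∃ σ : ℝ, (σ = 1 ∨ σ = -1) ∧
      Jkl m r - ∫ q, ((m + 3 - 4 / (m ^ 2 - 1)) * (ip N N q.1 q.2
            * (σ * (ip x N q.1 q.2 + ip N x q.1 q.2)) / 2)
          - ip x x q.1 q.2 * (σ * (ip x N q.1 q.2 + ip N x q.1 q.2)) / 2
          - 4 * (m + 2) / r * ((ip x N q.1 q.2 ^ 2 + ip N x q.1 q.2 ^ 2) / 2)) ∂(μ.prod μ)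
      ≤ (m + 1) * (2 * m - 1) / r * ∫ q, (ip N N q.1 q.2 - ip x x q.1 q.2
            - σ / r * (ip x N q.1 q.2 + ip N x q.1 q.2)) ^ 2 ∂(μ.prod μ)
        + (7 - dl m) / r
          * ((m + 1) / 2 * ∫ q, (ip N x q.1 q.2 - ip x N q.1 q.2) ^ 2 ∂(μ.prod μ)) := by
  have hp := h.prob
  have a1 : m + 1 ≠ 0 := by linarith
  have a2 : m - 1 ≠ 0 := by linarith
  have a3 : m ^ 2 - 1 ≠ 0 := by nlinarith
  have a4 : 0 < m + 1 := by linarith
  set P : Matrix ι ι ℝ := Matrix.of (m2 μ N N) with hP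
  set C : Matrix ι ι ℝ := Matrix.of (m2 μ N x) with hC
  have hK : (r • C).IsSymm := by
    ext a b
    simp only [Matrix.transpose_apply, Matrix.smul_apply, hC, Matrix.of_apply, smul_eq_mul]
    rw [h.C_symm b a]
  have trP : ∑ i, P i i = 1 := h.trP
  have trK : ∑ i, (r • C) i i = 0 := by
    simp only [Matrix.smul_apply, smul_eq_mul, ← Finset.mul_sum]
    have : ∑ i, C i i = 0 := h.trC
    rw [this, mul_zero]
  have hb : ∀ v : ι → ℝ, v ⬝ᵥ v = 1 → 0 ≤ v ⬝ᵥ P *ᵥ v ∧ v ⬝ᵥ P *ᵥ v ≤ 1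
      ∧ (v ⬝ᵥ (r • C) *ᵥ v) ^ 2 ≤ (m - 1) * (v ⬝ᵥ P *ᵥ v) * (1 - v ⬝ᵥ P *ᵥ v) := by
    intro v hv
    obtain ⟨b1, b2, b3⟩ := dir_bound h a4 hv
    refine ⟨b1, b2, ?_⟩
    have e : v ⬝ᵥ (r • C) *ᵥ v = r * (v ⬝ᵥ C *ᵥ v) := by
      rw [Matrix.smul_mulVec, dotProduct_smul, smul_eq_mul]
    rw [e, mul_pow, hr2]
    have := mul_le_mul_of_nonneg_left b3 (by linarith : 0 ≤ m - 1)
    calc (m ^ 2 - 1) * (v ⬝ᵥ C *ᵥ v) ^ 2 = (m - 1) * ((m + 1) * (v ⬝ᵥ C *ᵥ v) ^ 2) := by ring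
      _ ≤ (m - 1) * ((v ⬝ᵥ P *ᵥ v) * (1 - v ⬝ᵥ P *ᵥ v)) := this
      _ = _ := by ring
  have hcard := h.card
  obtain ⟨σ, hσ, hF⟩ := spec_matrixS hm hcard ho hK trP trK hb
  refine ⟨σ, hσ, ?_⟩
  have hσ2 : σ ^ 2 = 1 := by rcases hσ with h | h <;> rw [h] <;> norm_num
  set A := ∑ a, ∑ b, m2 μ N N a b ^ 2 with hA
  set B := ∑ a, ∑ b, m2 μ N x a b ^ 2 with hB
  set D := ∑ a, ∑ b, m2 μ N N a b * m2 μ N x a b with hD
  have e1 : ∑ a, ∑ b, P a b ^ 2 = A := rfl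
  have e2 : ∑ a, ∑ b, P a b * (r • C) a b = r * D := by
    rw [hD, Finset.mul_sum]
    refine Finset.sum_congr rfl fun a _ => ?_
    rw [Finset.mul_sum]
    refine Finset.sum_congr rfl fun b _ => ?_
    simp only [Matrix.smul_apply, hC, hP, Matrix.of_apply, smul_eq_mul]
    ring
  have e3 : ∑ a, ∑ b, (r • C) a b ^ 2 = (m ^ 2 - 1) * B := by
    rw [hB, Finset.mul_sum]
    refine Finset.sum_congr rfl fun a _ => ?_
    rw [Finset.mul_sum]
    refine Finset.sum_congr rfl fun b _ => ?_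
    simp only [Matrix.smul_apply, hC, Matrix.of_apply, smul_eq_mul]
    rw [← hr2]
    ring
  rw [e1, e2, e3] at hF
  have q1 := E_quad h a1 (σ / r)
  have q2 := h.E_pt a1
  have q3 := E_lin h a1 (σ * (m + 3 - 4 / (m ^ 2 - 1))) σ (4 * (m + 2) / r)
  rw [← hA, ← hB, ← hD] at q1
  rw [← hA, ← hB] at q2
  rw [← hA, ← hD] at q3
  set I1 := ∫ q, (ip N N q.1 q.2 - ip x x q.1 q.2
            - σ / r * (ip x N q.1 q.2 + ip N x q.1 q.2)) ^ 2 ∂(μ.prod μ) with hI1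
  set I2 := ∫ q, (ip N x q.1 q.2 - ip x N q.1 q.2) ^ 2 ∂(μ.prod μ) with hI2
  have q4 : ∫ q, ((m + 3 - 4 / (m ^ 2 - 1)) * (ip N N q.1 q.2
            * (σ * (ip x N q.1 q.2 + ip N x q.1 q.2)) / 2)
          - ip x x q.1 q.2 * (σ * (ip x N q.1 q.2 + ip N x q.1 q.2)) / 2
          - 4 * (m + 2) / r * ((ip x N q.1 q.2 ^ 2 + ip N x q.1 q.2 ^ 2) / 2)) ∂(μ.prod μ)
      = al m * (σ * D) - be m / r * (1 - A) := by
    have e4 : ∀ q : Ω × Ω, (m + 3 - 4 / (m ^ 2 - 1)) * (ip N N q.1 q.2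
            * (σ * (ip x N q.1 q.2 + ip N x q.1 q.2)) / 2)
          - ip x x q.1 q.2 * (σ * (ip x N q.1 q.2 + ip N x q.1 q.2)) / 2
          - 4 * (m + 2) / r * ((ip x N q.1 q.2 ^ 2 + ip N x q.1 q.2 ^ 2) / 2)
        = σ * (m + 3 - 4 / (m ^ 2 - 1)) * (ip N N q.1 q.2 * (ip x N q.1 q.2 + ip N x q.1 q.2) / 2)
          - σ * (ip x x q.1 q.2 * (ip x N q.1 q.2 + ip N x q.1 q.2) / 2)
          - 4 * (m + 2) / r * ((ip x N q.1 q.2 ^ 2 + ip N x q.1 q.2 ^ 2) / 2) := fun q => by ring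
    simp_rw [e4]
    rw [q3]
    have e5 : al m = m + 3 - 4 / (m ^ 2 - 1) + 1 / (m + 1) := by
      unfold al
      have e6 : m ^ 2 - 1 = (m + 1) * (m - 1) := by ring
      rw [e6]
      field_simp
      ring
    rw [e5]
    unfold be
    field_simp
  rw [q4]
  have hφ : Ph m A (σ * (r * D)) ((m ^ 2 - 1) * B)
      = (m + 1) * (2 * m - 1) * I1 + 7 * ((m + 1) / 2 * I2) + al m * (σ * (r * D))
        + be m * A := by
    rw [q1, q2]
    unfold Ph w1 w2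
    have e6 : m ^ 2 - 1 = (m + 1) * (m - 1) := by ring
    have e7 : (σ / r) ^ 2 = 1 / ((m + 1) * (m - 1)) := by
      rw [div_pow, hσ2, hr2, e6]
    have e8 : σ * (r * D) = ((m + 1) * (m - 1)) * (σ / r * D) := by
      rw [← e6, ← hr2]
      field_simp
    rw [e7, e8, e6]
    field_simp
    ring
  have hsl : 1 - A - (m ^ 2 - 1) * B / (m - 1) = (m + 1) / 2 * I2 := by
    rw [q2]
    field_simp
    ring
  rw [hφ, tg_eq hm, hsl] at hF
  have hr0 : r ≠ 0 := hr.ne'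
  have e9 : r * (Jkl m r - (al m * (σ * D) - be m / r * (1 - A)))
      = al m * (2 * (m ^ 2 - 1) / (m ^ 2 * (m + 3)))
        + be m * ((m ^ 2 + m + 2) / (m ^ 2 * (m + 3))) - al m * (σ * (r * D)) - be m * A := by
    unfold Jkl
    rw [← hr2]
    field_simp
    ring
  have e10 : r * (((m + 1) * (2 * m - 1) / r) * I1 + ((7 - dl m) / r) * ((m + 1) / 2 * I2))
      = (m + 1) * (2 * m - 1) * I1 + (7 - dl m) * ((m + 1) / 2 * I2) := by
    field_simp
  refine le_of_mul_le_mul_left ?_ hr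
  rw [e9, e10]
  linarith

end

section

variable {X : Type*} [MeasurableSpace X] {E : Type*} [NormedAddCommGroup E]
  [InnerProductSpace ℝ E] {μ : Measure X} [IsFiniteMeasure μ] [NeZero μ] {p n : X → E}
  {ι : Type*} [Fintype ι] [DecidableEq ι] (b : OrthonormalBasis ι ℝ E)

/-- the spectral inequality with the slack in terms of the two point means -/
theorem spectral_E2S {m : ℕ} (h : T0Data (nrm μ) (m : ℝ) (co b p) (co b n)) (hm : 3 ≤ m)
    (ho : Odd (Fintype.card ι)) {d r : ℝ} (hr : 0 < r) (hr2 : r ^ 2 = (m : ℝ) ^ 2 - 1)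
    (hd : d = 2 / r) :
    ∃ n' : X → E, (n' = n ∨ n' = fun x => -n x) ∧
      Jkl m r * μ.real Set.univ ^ 2 - E2 μ p n' (JK m d)
        ≤ (m + 1) * (2 * m - 1) / r * E2 μ p n' (Qk d)
          + (7 - dl m) / r * ((m + 1) / 2 * E2 μ p n' Xk) := by
  obtain ⟨σ, hσ, hs'⟩ := odd_spectralS h (by exact_mod_cast hm) ho hr hr2
  have hd2 : d ^ 2 = 4 / ((m : ℝ) ^ 2 - 1) := by
    rw [hd, div_pow, hr2]
    norm_num
  have hA : 0 ≤ μ.real Set.univ ^ 2 := sq_nonneg _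
  refine ⟨fun x => σ • n x, ?_, ?_⟩
  · rcases hσ with h1 | h1
    · left
      rw [h1]
      simp
    · right
      rw [h1]
      simp
  have hσ2 : σ ^ 2 = 1 := by rcases hσ with h1 | h1 <;> rw [h1] <;> norm_num
  have e1 : E2 μ p (fun x => σ • n x) (JK m d) = μ.real Set.univ ^ 2 *
      ∫ q, (((m : ℝ) + 3 - 4 / ((m : ℝ) ^ 2 - 1)) * (ip (co b n) (co b n) q.1 q.2
            * (σ * (ip (co b p) (co b n) q.1 q.2 + ip (co b n) (co b p) q.1 q.2)) / 2)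
          - ip (co b p) (co b p) q.1 q.2
            * (σ * (ip (co b p) (co b n) q.1 q.2 + ip (co b n) (co b p) q.1 q.2)) / 2
          - 4 * (m + 2) / r * ((ip (co b p) (co b n) q.1 q.2 ^ 2
            + ip (co b n) (co b p) q.1 q.2 ^ 2) / 2)) ∂((nrm μ).prod (nrm μ)) := by
    rw [E2_nrm]
    congr 1
    refine integral_congr_ae (Eventually.of_forall fun q => ?_)
    simp only [ip_co]
    unfold JK SM2.pr
    simp only [real_inner_smul_left, real_inner_smul_right]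
    rw [hd2, hd]
    linear_combination (((m : ℝ) + 3 - 4 / ((m : ℝ) ^ 2 - 1)) * (⟪n q.1, n q.2⟫
      * (σ * (⟪p q.1, n q.2⟫ + ⟪n q.1, p q.2⟫)) / 2)
      - 4 * (m + 2) / r * ((⟪p q.1, n q.2⟫ ^ 2 + ⟪n q.1, p q.2⟫ ^ 2) / 2)) * hσ2
  have e2 : E2 μ p (fun x => σ • n x) (Qk d) = μ.real Set.univ ^ 2 *
      ∫ q, (ip (co b n) (co b n) q.1 q.2 - ip (co b p) (co b p) q.1 q.2
            - σ / r * (ip (co b p) (co b n) q.1 q.2 + ip (co b n) (co b p) q.1 q.2)) ^ 2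
        ∂((nrm μ).prod (nrm μ)) := by
    rw [E2_nrm]
    congr 1
    refine integral_congr_ae (Eventually.of_forall fun q => ?_)
    simp only [ip_co]
    unfold Qk SM2.pr
    simp only [real_inner_smul_left, real_inner_smul_right]
    have e5 : σ * (σ * ⟪n q.1, n q.2⟫) = ⟪n q.1, n q.2⟫ := by
      linear_combination ⟪n q.1, n q.2⟫ * hσ2
    rw [e5, hd]
    ring
  have e3 : E2 μ p (fun x => σ • n x) Xk = μ.real Set.univ ^ 2 *
      ∫ q, (ip (co b n) (co b p) q.1 q.2 - ip (co b p) (co b n) q.1 q.2) ^ 2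
        ∂((nrm μ).prod (nrm μ)) := by
    rw [E2_nrm]
    congr 1
    refine integral_congr_ae (Eventually.of_forall fun q => ?_)
    simp only [ip_co]
    unfold Xk SM2.pr
    simp only [real_inner_smul_left, real_inner_smul_right]
    linear_combination (⟪n q.1, p q.2⟫ - ⟪p q.1, n q.2⟫) ^ 2 * hσ2
  rw [e1, e2, e3]
  have h9 := mul_le_mul_of_nonneg_left hs' hA
  refine le_trans (le_of_eq ?_) (h9.trans (le_of_eq ?_)) <;> ring

end

end Vale.Agent.N224
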