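import Vale.Agent.N224.Rig

/-!
The two point laws are strict unless the pairing of position and normal is symmetric.
-/

namespace Vale.Agent.N224

open MeasureTheory Set Filter Function Real Module Matrix Vale.Agent.P224 Vale.Agent.P224.FV
  Vale.Agent.P224.R2 Vale.Agent.P224.R2.H820 Vale.Agent.P224.R2.H582 Vale.Agent.P224.R2.H627
  Vale.Agent.P224.R2.H728 Vale.Agent.P224.R2.H484 Vale.Agent.P224.R2.H925
open Vale.Agent.P224.SM2
open scoped Topology RealInnerProductSpace ContDiff Manifold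

set_option linter.unusedSectionVars false

/-- the cut off near the symmetric pairs -/
noncomputable def uK (m : ℕ) (k : R4) : ℝ := max (1 - 4 * m * max (-(k.2.2.1 * k.2.1)) 0) 0

/-- the kernel of the slack -/
noncomputable def S0 (m : ℕ) (k : R4) : ℝ := Xk k * uK m k

lemma continuous_S0 (m : ℕ) : Continuous (S0 m) := by
  unfold S0 uK Xk
  fun_prop

lemma S0_nonneg (m : ℕ) (k : R4) : 0 ≤ S0 m k :=
  mul_nonneg (sq_nonneg _) (le_max_right _ _)

lemma Yk_le {m : ℕ} {T : ℝ} {k : R4} (hT0 : 0 ≤ T) (hT : T < 1 / 2) (hk : k ∈ KK) :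
    Yk m T k ≤ 4 * m * max (-(k.2.2.1 * k.2.1)) 0 := by
  have hs : k.1 ≤ 1 := hk.1.2
  have hv : 1 / 2 ≤ 1 - T * k.1 := by nlinarith
  have hv2 : 1 / 4 ≤ (1 - T * k.1) ^ 2 := by nlinarith
  have hm : (0 : ℝ) ≤ m := Nat.cast_nonneg m
  unfold Yk
  rw [← neg_div, div_le_iff₀ (by linarith)]
  set a := max (-(k.2.2.1 * k.2.1)) 0 with ha
  have h1 : -(k.2.2.1 * k.2.1) ≤ a := le_max_left _ _
  have h2 : 0 ≤ a := le_max_right _ _
  have h3 : 0 ≤ 1 - T ^ 2 := by nlinarith
  have h4 : (1 - T ^ 2) * -(k.2.2.1 * k.2.1) ≤ (1 - T ^ 2) * a := mul_le_mul_of_nonneg_left h1 h3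
  have h5 : (1 - T ^ 2) * a ≤ a := by nlinarith [sq_nonneg T]
  have h6 : a ≤ 4 * a * (1 - T * k.1) ^ 2 := by nlinarith
  have h7 := mul_le_mul_of_nonneg_left (h4.trans (h5.trans h6)) hm
  linarith

/-- the pointwise lower bound with a slack -/
lemma FK_geS {m : ℕ} {T y e r l α β ε G : ℝ} {k : R4} (hT0 : 0 ≤ T) (hT : T < 1 / 2) (hr : 0 ≤ r)
    (hk : k ∈ KK) (hl : 1 ≤ l)
    (hα : α ≤ m * (T * y + m * r) - (m + 1) * (m + 2) * T ^ 2 * r / (1 - T ^ 2) * l)
    (hβ : m * (m + 1) * (T * |2 * r - e| - 2 * T ^ 2 * r) ≤ β) (hε : ε ≤ m * e)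
    (hG : (m + 1) * (m + 2) * T ^ 2 * r / (1 - T ^ 2) / 2 ≤ G) :
    ε * (ker T (m + 1) k.1 * Ck k)
      + 1 / 2 * (Xk k * (α * ker T (m + 1) k.1 - β * ker T (m + 2) k.1)) - G * TK m T l k
      + T ^ 2 * r * (2 ^ (m + 1))⁻¹ * S0 m k ≤ FK m T y e r k := by
  have hkap : 0 < 1 - T ^ 2 := by nlinarith
  set H : ℝ := (m + 1) * (m + 2) * T ^ 2 * r / (1 - T ^ 2) with hH
  have hH0 : 0 ≤ H := by positivity
  have hm : (0 : ℝ) ≤ m := Nat.cast_nonneg m
  have hH2 : 2 * (T ^ 2 * r) ≤ H := by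
    rw [hH, le_div_iff₀ hkap]
    have h1 : 0 ≤ T ^ 2 * r := by positivity
    have h2 : (2 : ℝ) ≤ (m + 1) * (m + 2) := by nlinarith
    nlinarith [mul_nonneg h1 (sq_nonneg T), mul_le_mul_of_nonneg_right h2 h1]
  have hu0 : 0 ≤ uK m k := le_max_right _ _
  have h1 := FK_ge (m := m) (y := y) (e := e) (l := l - uK m k) (α := α + H * uK m k) (β := β)
    (ε := ε) (G := G) hT0 (by linarith) hr hk (by rw [← hH]; linarith) hβ hε hG
  have hv : 0 < 1 - T * k.1 := by nlinarith [hk.1.2]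
  have k1 := ker_pos (m + 1) hv
  have hX : 0 ≤ Xk k := sq_nonneg _
  have h2 : TK m T (l - uK m k) k ≤ TK m T l k := by
    unfold TK
    refine mul_le_mul_of_nonneg_left ?_ (mul_nonneg k1.le hX)
    have h3 := Yk_le (m := m) hT0 hT hk
    rcases le_total (1 - 4 * m * max (-(k.2.2.1 * k.2.1)) 0) 0 with h | h
    · rw [show uK m k = 0 from max_eq_right h, sub_zero]
    · rw [show uK m k = _ from max_eq_left h]
      exact max_le (le_trans (by linarith) (le_max_right _ _)) (le_max_right _ _)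
  have hG0 : 0 ≤ G := le_trans (by positivity) hG
  have h3 := mul_le_mul_of_nonneg_left h2 hG0
  have h4 : (2 ^ (m + 1))⁻¹ ≤ ker T (m + 1) k.1 := by
    unfold SM2.ker
    refine inv_anti₀ (pow_pos hv _) (pow_le_pow_left₀ hv.le ?_ _)
    nlinarith [hk.1.1]
  have h5 : 2 * (T ^ 2 * r) * (2 ^ (m + 1))⁻¹ ≤ H * ker T (m + 1) k.1 :=
    mul_le_mul hH2 h4 (by positivity) hH0
  have h6 := mul_le_mul_of_nonneg_right h5 (mul_nonneg hX hu0)
  unfold S0
  linarith

section

variable {X : Type*} [MeasurableSpace X] {E : Type*} [NormedAddCommGroup E]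
  [InnerProductSpace ℝ E] [MeasurableSpace E] [BorelSpace E] [SecondCountableTopology E]
  {μ : Measure X} [IsFiniteMeasure μ] {m : ℕ} {p n : X → E} {y Z e r : ℝ → ℝ}

/-- the defect at level T with the slack -/
theorem lev_slack (h : Two μ m p n) (hc : CertO m y Z e r) {T l α β ε G : ℝ}
    (hT : T ∈ Ioo (0 : ℝ) 1) (hl : T < 1 / 2 → 1 ≤ l)
    (hα : α ≤ m * (T * y T + m * r T) - (m + 1) * (m + 2) * T ^ 2 * r T / (1 - T ^ 2) * l)
    (hβ : m * (m + 1) * (T * |2 * r T - e T| - 2 * T ^ 2 * r T) ≤ β) (hε : ε ≤ m * e T)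
    (hG : (m + 1) * (m + 2) * T ^ 2 * r T / (1 - T ^ 2) / 2 ≤ G) :
    ε * E2 μ p n (fun k => ker T (m + 1) k.1 * Ck k)
      + 1 / 2 * E2 μ p n (fun k => Xk k * (α * ker T (m + 1) k.1 - β * ker T (m + 2) k.1))
      - G * E2 μ p n (TK m T l)
      + cut (1 / 2) (fun T => T ^ 2 * r T) T * ((2 ^ (m + 1))⁻¹ * E2 μ p n (S0 m))
      ≤ DF μ m p n y e r T := by
  rcases le_or_gt (1 / 2) T with hh | hh
  · rw [cut_ge _ hh, zero_mul, add_zero]
    exact DF_ge_level h hc hT hα hβ hε hG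
  rw [cut_lt _ hh]
  have hT' : T ∈ Ico (0 : ℝ) 1 := ⟨hT.1.le, hT.2⟩
  have m1 := measurable_ker T (m + 1)
  have m2 := measurable_ker T (m + 2)
  have c1 := contOn_ker' hT' (m + 1)
  have c2 := contOn_ker' hT' (m + 2)
  have a1 : Measurable (fun k : R4 => ker T (m + 1) k.1 * Ck k) := by
    unfold Ck; fun_prop
  have a2 : ContinuousOn (fun k : R4 => ker T (m + 1) k.1 * Ck k) KK := by
    refine c1.mul ?_
    unfold Ck; fun_prop
  have b1 : Measurable (fun k : R4 => Xk k * (α * ker T (m + 1) k.1 - β * ker T (m + 2) k.1)) := by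
    unfold Xk; fun_prop
  have b2 : ContinuousOn (fun k : R4 => Xk k * (α * ker T (m + 1) k.1 - β * ker T (m + 2) k.1))
      KK := by
    refine ContinuousOn.mul ?_ ((continuousOn_const.mul c1).sub (continuousOn_const.mul c2))
    unfold Xk; fun_prop
  have d1 := measurable_TK m T l
  have d2 := contOn_TK hT' m l
  have i1 := (int_E2 h a1 a2).const_mul ε
  have i2 := (int_E2 h b1 b2).const_mul (1 / 2)
  have i3 := (int_E2 h d1 d2).const_mul G
  have i4 := (int_E2 h (continuous_S0 m).measurable (continuous_S0 m).continuousOn).const_mul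
    (T ^ 2 * r T * (2 ^ (m + 1))⁻¹)
  have h1 := integral_mono (((i1.add i2).sub i3).add i4) (integrable_FK h hc hT') fun q =>
    FK_geS hT.1.le hh (hc.r0 T hT) (h.pr_mem q) (hl hh) hα hβ hε hG
  rw [integral_add' ((i1.add i2).sub i3) i4, integral_sub' (i1.add i2) i3, integral_add' i1 i2,
    integral_const_mul, integral_const_mul, integral_const_mul, integral_const_mul] at h1
  unfold E2 DF
  linarith

/-- the part with the second square -/
lemma partC (h : Two μ m p n) {T ε : ℝ} (hT : T ∈ Ioo (0 : ℝ) 1) (hε0 : 0 ≤ ε) :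
    ε * E2 μ p n Ck + (m + 1) * T * ε * E2 μ p n (fun k => Ck k * k.1)
      ≤ ε * E2 μ p n (fun k => ker T (m + 1) k.1 * Ck k) := by
  have hT' : T ∈ Ico (0 : ℝ) 1 := ⟨hT.1.le, hT.2⟩
  have m1 := measurable_ker T (m + 1)
  have c1 := contOn_ker' hT' (m + 1)
  have mC : Measurable Ck := by unfold Ck; fun_prop
  have cC : ContinuousOn Ck KK := by unfold Ck; fun_prop
  have mCs : Measurable (fun k : R4 => Ck k * k.1) := by fun_prop
  have cCs : ContinuousOn (fun k : R4 => Ck k * k.1) KK := cC.mul (by fun_prop)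
  rw [← E2_mul, ← E2_mul, ← E2_mul, ← E2_add h (mC.const_mul _) (continuousOn_const.mul cC)
    (mCs.const_mul _) (continuousOn_const.mul cCs)]
  refine E2_mono h ((mC.const_mul _).add (mCs.const_mul _))
    ((continuousOn_const.mul cC).add (continuousOn_const.mul cCs))
    ((m1.comp measurable_fst).mul mC |>.const_mul _)
    (continuousOn_const.mul (c1.mul cC)) fun q => ?_
  have hk := h.pr_mem q
  set k := SM2.pr p n q
  have h1 := comb_tangent (T := T) (s := k.1) (s0 := 0) (α := ε) (β := 0) (q := m + 1) hT.1.le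
    hT.2 hk.1.2 (by norm_num) hε0 (by
      rw [mul_zero]
      have : 0 < 1 - T := by linarith [hT.2]
      positivity)
  have hC : 0 ≤ Ck k := sq_nonneg _
  have e0 : ∀ q : ℕ, ker T q 0 = 1 := fun q => by simp [SM2.ker]
  simp only [e0] at h1
  have h2 := mul_le_mul_of_nonneg_right h1 hC
  push_cast at h2
  linarith

/-- the part with the first square, a linear lower bound of the kernel -/
lemma partX (h : Two μ m p n) {T α β a b : ℝ} (hT : T ∈ Ioo (0 : ℝ) 1)
    (hab : ∀ s ∈ Icc (-1 : ℝ) 1, a + b * s ≤ α * ker T (m + 1) s - β * ker T (m + 2) s) :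
    a * E2 μ p n Xk + b * E2 μ p n (fun k => Xk k * k.1)
      ≤ E2 μ p n (fun k => Xk k * (α * ker T (m + 1) k.1 - β * ker T (m + 2) k.1)) := by
  have hT' : T ∈ Ico (0 : ℝ) 1 := ⟨hT.1.le, hT.2⟩
  have m1 := measurable_ker T (m + 1)
  have m2 := measurable_ker T (m + 2)
  have c1 := contOn_ker' hT' (m + 1)
  have c2 := contOn_ker' hT' (m + 2)
  have mX : Measurable Xk := by unfold Xk; fun_prop
  have cX : ContinuousOn Xk KK := by unfold Xk; fun_prop
  have mXs : Measurable (fun k : R4 => Xk k * k.1) := by fun_prop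
  have cXs : ContinuousOn (fun k : R4 => Xk k * k.1) KK := cX.mul (by fun_prop)
  rw [← E2_mul, ← E2_mul, ← E2_add h (mX.const_mul _) (continuousOn_const.mul cX)
    (mXs.const_mul _) (continuousOn_const.mul cXs)]
  refine E2_mono h ((mX.const_mul _).add (mXs.const_mul _))
    ((continuousOn_const.mul cX).add (continuousOn_const.mul cXs))
    (mX.mul (((m1.comp measurable_fst).const_mul _).sub ((m2.comp measurable_fst).const_mul _)))
    (cX.mul ((continuousOn_const.mul c1).sub (continuousOn_const.mul c2))) fun q => ?_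
  have hk := h.pr_mem q
  set k := SM2.pr p n q
  have hX : 0 ≤ Xk k := sq_nonneg _
  have h2 := mul_le_mul_of_nonneg_left (hab k.1 hk.1) hX
  linarith

end

lemma ker_comb_nonneg {m : ℕ} {T α β s : ℝ} (hT : T ∈ Ioo (0 : ℝ) 1) (hs : s ∈ Icc (-1 : ℝ) 1)
    (hpos : β ≤ α * (1 - T)) (hrel : β ≤ α * (1 + T)) :
    0 + 0 * s ≤ α * ker T (m + 1) s - β * ker T (m + 2) s := by
  have hv := one_sub_pos' ⟨hT.1.le, hT.2⟩ hs.2
  have e1 : ker T (m + 1) s = ker T (m + 2) s * (1 - T * s) := by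
    have h3 := ker_succ_div T s (m + 1) 1
    rw [pow_one] at h3
    rw [show m + 2 = m + 1 + 1 from rfl, h3, div_mul_cancel₀ _ hv.ne']
  rw [e1]
  have hkp := (ker_pos (m + 2) hv).le
  have h4 := v_mem hT.1.le hs
  have h5 := rel_pos hpos hrel h4.1 h4.2
  have h8 := mul_nonneg hkp (sub_nonneg.2 h5)
  linarith

lemma slack_pos {m : ℕ} (hm : 17 ≤ m) : 0 < ∫ T in (0 : ℝ)..(1 / 2), T ^ 2 * rM m T := by
  have hc := contOn_rM (m := m) (by omega)
  have hc2 : ContinuousOn (fun T => T ^ 2 * rM m T) (Icc 0 (1 / 2)) :=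
    (contOn_pow_mul hc 2).mono (Icc_subset_Icc le_rfl (by norm_num))
  have hr : 0 < rM m 0 := by
    have h1 : 0 < m * rM m 0 := by
      rw [mr0_eq]
      exact lt_of_lt_of_le (by norm_num) ((g_ge hm).trans (R0_ge hm))
    exact (mul_pos_iff_of_pos_left (by exact_mod_cast (by omega : 0 < m))).1 h1
  refine intervalIntegral.integral_pos (by norm_num) hc2 (fun x hx => ?_) ?_
  · exact mul_nonneg (sq_nonneg _)
      ((certO_M (m := m) (by omega)).r0 x ⟨hx.1, by linarith [hx.2]⟩)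
  · have h1 := (hc 0 ⟨le_rfl, zero_le_one⟩).eventually (lt_mem_nhds hr)
    obtain ⟨δ, hδ, h2⟩ := Metric.mem_nhdsWithin_iff.1 h1
    refine ⟨min (δ / 2) (1 / 2), ⟨by positivity, min_le_right _ _⟩, ?_⟩
    have h3 : 0 < min (δ / 2) (1 / 2) := by positivity
    refine mul_pos (by positivity) (h2 ⟨?_, h3.le, (min_le_right _ _).trans (by norm_num)⟩)
    rw [Metric.mem_ball, Real.dist_eq, sub_zero, abs_of_pos h3]
    exact (min_le_left _ _).trans_lt (by linarith)

section

variable {V W M : Type*} [NormedAddCommGroup V] [InnerProductSpace ℝ V] [FiniteDimensional ℝ V]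
  [NormedAddCommGroup W] [InnerProductSpace ℝ W] [FiniteDimensional ℝ W]
  [TopologicalSpace M] [ChartedSpace V M]
  [MeasurableSpace V] [BorelSpace V] [MeasurableSpace M] [BorelSpace M]
  [MeasurableSpace W] [BorelSpace W] [IsManifold 𝓘(ℝ, V) ∞ M]
  [CompactSpace M] [T2Space M]

/-- without slack the pairing is symmetric -/
theorem sym_of_S0 [ConnectedSpace M] (hW : finrank ℝ W = finrank ℝ V + 2) {F : M → W}
    (hF : SphImm V F) {N : M → W} (hNs : ContMDiff 𝓘(ℝ, V) 𝓘(ℝ, W) ∞ N)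
    {m : ℕ} (h : E2 (volM V F) F N (S0 m) ≤ 0) (x y : M) :
    ⟪N x, F y⟫ = ⟪F x, N y⟫ := by
  have cF : Continuous F := hF.smooth.continuous
  have cN : Continuous N := hNs.continuous
  have cp : Continuous (SM2.pr F N) := by
    unfold SM2.pr
    fun_prop
  have h0 := pair_zero hW hF ((continuous_S0 m).comp cp) (fun q => S0_nonneg m _) h
  have cX : Continuous fun q => Xk (SM2.pr F N q) := by
    unfold Xk
    fun_prop
  have cu : Continuous fun q => uK m (SM2.pr F N q) := by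
    unfold uK
    fun_prop
  have hcl : IsClopen {q : M × M | Xk (SM2.pr F N q) = 0} := by
    refine ⟨isClosed_eq cX continuous_const, ?_⟩
    have e : {q : M × M | Xk (SM2.pr F N q) = 0} = {q | 0 < uK m (SM2.pr F N q)} := by
      ext q
      simp only [mem_ofPred_eq]
      constructor
      · intro hq
        have h1 : (SM2.pr F N q).2.2.1 = (SM2.pr F N q).2.1 :=
          sub_eq_zero.1 (pow_eq_zero_iff two_ne_zero |>.1 hq)
        unfold uK
        rw [h1, max_eq_right (neg_nonpos.2 (mul_self_nonneg _))]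
        simp
      · intro hq
        exact (mul_eq_zero.1 (h0 q)).resolve_right hq.ne'
    rw [e]
    exact isOpen_lt continuous_const cu
  have hne : ({q : M × M | Xk (SM2.pr F N q) = 0}).Nonempty := by
    refine ⟨(x, x), ?_⟩
    simp only [mem_ofPred_eq, Xk, SM2.pr]
    rw [real_inner_comm (F x) (N x), sub_self]
    simp
  have h2 : (x, y) ∈ {q : M × M | Xk (SM2.pr F N q) = 0} := by
    rw [hcl.eq_univ hne]
    trivial
  exact sub_eq_zero.1 (pow_eq_zero_iff two_ne_zero |>.1 h2)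

/-- an embedded hypersurface of small volume with a positive slack -/
structure Ctx (V : Type*) {W M : Type*} [NormedAddCommGroup V] [InnerProductSpace ℝ V]
    [FiniteDimensional ℝ V] [MeasurableSpace V] [BorelSpace V] [NormedAddCommGroup W]
    [InnerProductSpace ℝ W] [FiniteDimensional ℝ W] [TopologicalSpace M] [ChartedSpace V M]
    [MeasurableSpace M] (F N : M → W) (m : ℕ) : Prop where
  hm : m = finrank ℝ V
  h17 : 17 ≤ m
  hW : finrank ℝ W = finrank ℝ V + 2
  hF : SphImm V F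
  hmin : ∀ x n, IsUnitNormal V F x n → meanCurv V F x n = 0
  hNs : ContMDiff 𝓘(ℝ, V) 𝓘(ℝ, W) ∞ N
  hN : ∀ x, IsUnitNormal V F x (N x)
  inj : Injective F
  small : (volM V F).real univ ≤ 2 * lamM m * sphereVol m
  pos : 0 < E2 (volM V F) F N (S0 m)

variable {F N : M → W} {m : ℕ}

lemma Ctx.volPos [Nonempty M] (C : Ctx V F N m) : 0 < (volM V F).real univ := by
  have hfin : IsFiniteMeasure (volM V F) := isFiniteMeasure_volM C.hF
  exact ENNReal.toReal_pos (volM_pos_of_isOpen C.hW C.hF isOpen_univ univ_nonempty).ne'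
    (measure_ne_top _ _)

/-- **the strict inequality** for a lower bound of the level expression -/
theorem Ctx.strict [Nonempty M] (C : Ctx V F N m) {lam be' B τ : ℝ → ℝ}
    (hl : ∀ T ∈ Ioo (0 : ℝ) (1 / 2), 1 ≤ (1 - T ^ 2) * lam T)
    (hβ : ∀ T ∈ Ioo (0 : ℝ) 1,
      m * (m + 1) * (T * |2 * rM m T - eM m T| - 2 * T ^ 2 * rM m T) ≤ be' T)
    (hBi : IntervalIntegrable B volume 0 1) (hτi : IntervalIntegrable τ volume 0 1)
    (hτ : ∀ T ∈ Ioo (0 : ℝ) 1, (m + 1) * (m + 2) * T ^ 2 * rM m T / (1 - T ^ 2) / 2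
      * E2 (volM V F) F N (TK m T ((1 - T ^ 2) * lam T)) ≤ τ T * (volM V F).real univ ^ 2)
    (hB : ∀ T ∈ Ioo (0 : ℝ) 1, B T * (volM V F).real univ ^ 2
      ≤ m * eM m T * E2 (volM V F) F N (fun k => SM2.ker T (m + 1) k.1 * Ck k)
      + 1 / 2 * E2 (volM V F) F N (fun k => Xk k * (al m T (yM m T) (rM m T) (lam T)
        * SM2.ker T (m + 1) k.1 - be' T * SM2.ker T (m + 2) k.1)))
    {ι : Type*} [Fintype ι] [DecidableEq ι] (b : OrthonormalBasis ι ℝ W) :
    (∫ T in (0 : ℝ)..1, B T) - ∫ T in (0 : ℝ)..1, τ T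
      < m * rM m 0 * uu (nrm (volM V F)) (co b N) := by
  have hA := C.volPos
  obtain ⟨hm, h17, hW, hF, hmin, hNs, hN, hinj, hsm, hpos⟩ := C
  subst hm
  set m := finrank ℝ V with hmdef
  have hfin : IsFiniteMeasure (volM V F) := isFiniteMeasure_volM hF
  have hnz : NeZero (volM V F) := ⟨fun h => by
    rw [h] at hA
    simp at hA⟩
  have h2p : Two (volM V F) m F N := two_of_min hW hF hmin hNs hN
  have hc := certO_M (m := m) (by omega)
  set A := (volM V F).real univ with hAdef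
  set c := (2 ^ (m + 1))⁻¹ * E2 (volM V F) F N (S0 m) with hcdef
  have hc0 : 0 < c := by positivity
  have i0 : IntervalIntegrable (fun T => T ^ 2 * rM m T) volume 0 (1 / 2) := by
    refine ContinuousOn.intervalIntegrable ?_
    rw [uIcc_of_le (by norm_num)]
    exact (contOn_pow_mul (contOn_rM (by omega)) 2).mono (Icc_subset_Icc le_rfl (by norm_num))
  obtain ⟨j0, e0⟩ := int_cut (by norm_num) (by norm_num) i0
  have hL := sharp_defect (by omega) hW hF hmin hNs hN hinj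
    (((hBi.mul_const (A ^ 2)).sub (hτi.mul_const (A ^ 2))).add (j0.mul_const c)) fun T hT => by
      have hk : 0 < 1 - T ^ 2 := by nlinarith [hT.1, hT.2]
      have hal : al m T (yM m T) (rM m T) (lam T) ≤ m * (T * yM m T + m * rM m T)
          - (m + 1) * (m + 2) * T ^ 2 * rM m T / (1 - T ^ 2) * ((1 - T ^ 2) * lam T) :=
        (al_eq hT).le
      have q1 := lev_slack h2p hc hT (fun h => hl T ⟨hT.1, h⟩) hal (hβ T hT) le_rfl le_rfl
      have q2 := hτ T hT
      have q3 := hB T hT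
      unfold DM
      rw [← hmdef]
      linarith
  rw [intervalIntegral.integral_add ((hBi.mul_const _).sub (hτi.mul_const _)) (j0.mul_const c),
    intervalIntegral.integral_sub (hBi.mul_const _) (hτi.mul_const _)] at hL
  simp only [intervalIntegral.integral_mul_const] at hL
  rw [e0] at hL
  have hcN : Continuous N := hNs.continuous
  have e6 : ‖∫ x, N x ∂(volM V F)‖ ^ 2 = A ^ 2 * uu (nrm (volM V F)) (co b N) :=
    sum_m1_sq b (hcN.integrable_of_hasCompactSupport (HasCompactSupport.of_compactSpace N))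
  rw [e6, ← hmdef, ← hAdef] at hL
  have h1 := mul_pos (slack_pos h17) hc0
  have h2 := mul_le_mul_of_nonneg_right hsm hA.le
  refine lt_of_mul_lt_mul_left (a := A ^ 2) ?_ (by positivity)
  nlinarith

/-- **the strict law with the tangent line below the level `T₁`** -/
theorem Ctx.lawT [Nonempty M] (C : Ctx V F N m) {ι : Type*} [Fintype ι] [DecidableEq ι]
    (b : OrthonormalBasis ι ℝ W) {σ T1 : ℝ} (hσ : 0 ≤ σ) (hσ1 : σ ≤ 1) (hT1 : 0 ≤ T1)
    (hT1' : T1 ≤ 1) {lam be' B0 B1 τ : ℝ → ℝ} {T2 : ℝ} (hfr : Fra m lam be' T2) (h12 : T1 ≤ T2)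
    (hl : ∀ T ∈ Ioo (0 : ℝ) (1 / 2), 1 ≤ (1 - T ^ 2) * lam T)
    (i0 : IntervalIntegrable B0 volume 0 T1) (i1 : IntervalIntegrable B1 volume 0 T1)
    (hB0 : ∀ T ∈ Ioo (0 : ℝ) T1,
      B0 T ≤ 1 / 2 * ta (m + 1) T (al m T (yM m T) (rM m T) (lam T)) (be' T) (-σ))
    (hB1 : ∀ T ∈ Ioo (0 : ℝ) T1,
      1 / 2 * tb (m + 1) T (al m T (yM m T) (rM m T) (lam T)) (be' T) (-σ) ≤ B1 T)
    (hτi : IntervalIntegrable τ volume 0 1)
    (hτ : ∀ T ∈ Ioo (0 : ℝ) 1, (m + 1) * (m + 2) * T ^ 2 * rM m T / (1 - T ^ 2) / 2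
      * E2 (volM V F) F N (TK m T ((1 - T ^ 2) * lam T)) ≤ τ T * (volM V F).real univ ^ 2) :
    XL (nrm (volM V F)) m (co b F) (co b N) (∫ T in (0 : ℝ)..T1, B0 T) (∫ T in (0 : ℝ)..T1, B1 T)
      σ (m / ((m + 2) * (m + 4))) (m * (m + 1) * EM m 1) (∫ T in (0 : ℝ)..1, τ T)
      < m * rM m 0 * uu (nrm (volM V F)) (co b N) := by
  have hA := C.volPos
  have hfin : IsFiniteMeasure (volM V F) := isFiniteMeasure_volM C.hF
  have hm4 : 4 ≤ m := by have := C.h17; omega
  have hnz : NeZero (volM V F) := ⟨fun h => by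
    rw [h] at hA
    simp at hA⟩
  have hT0 : T0Data (nrm (volM V F)) m (co b F) (co b N) := by
    rw [C.hm]
    exact t0Data_of_min (by have := C.hm; omega) C.hW C.hF C.hmin C.hNs C.hN b
  have hmR : (m : ℝ) + 1 ≠ 0 := by positivity
  have h2p : Two (volM V F) m F N := by
    rw [C.hm]
    exact two_of_min C.hW C.hF C.hmin C.hNs C.hN
  have hc := certO_M hm4
  set A := (volM V F).real univ with hAdef
  have ce := contOn_eM hm4
  obtain ⟨j0, e0⟩ := int_cut hT1 hT1' i0
  obtain ⟨j1, e1⟩ := int_cut hT1 hT1' i1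
  set Q0 := Qpt (nrm (volM V F)) m (co b F) (co b N) with hQ0
  set Q1 := Qpts (nrm (volM V F)) m (co b F) (co b N) with hQ1
  set P0 := Qcs (nrm (volM V F)) (co b F) (co b N) with hP0
  set P1 := Qcss (nrm (volM V F)) m (co b F) (co b N) with hP1
  have e2 : E2 (volM V F) F N Xk = A ^ 2 * Q0 := E2_Xk b hmR hT0
  have e3 : E2 (volM V F) F N (fun k => Xk k * k.1) = A ^ 2 * Q1 := E2_Xks b hmR hT0
  have e4 : E2 (volM V F) F N Ck = A ^ 2 * P0 := E2_Ck b hT0
  have e5 : E2 (volM V F) F N (fun k => Ck k * k.1) = A ^ 2 * P1 := E2_Cks b hT0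
  have hA2 : 0 < A ^ 2 := pow_pos hA 2
  have hQn : 0 ≤ Q0 := hT0.Qpt_nonneg (Nat.cast_nonneg m)
  have ie0 : IntervalIntegrable (fun T => T ^ 0 * eM m T) volume 0 1 := intble (contOn_pow_mul ce 0)
  have ie1 : IntervalIntegrable (fun T => T ^ 1 * eM m T) volume 0 1 := intble (contOn_pow_mul ce 1)
  have iA := (j0.mul_const Q0).add (j1.mul_const (min (Q1 + σ * Q0) 0))
  have iB := iA.add ((ie0.const_mul m).mul_const P0)
  have iC := iB.add ((ie1.const_mul (m * (m + 1))).mul_const P1)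
  have hL := C.strict hl hfr.hβ iC hτi hτ (fun T hT => by
    have q1 := partC h2p (ε := m * eM m T) hT (mul_nonneg (Nat.cast_nonneg m) (hc.e0 T hT))
    rw [e4, e5] at q1
    rcases lt_or_ge T T1 with hlt | hge
    · have hTT : T ∈ Ioo 0 T1 := ⟨hT.1, hlt⟩
      have hcv := hfr.hconv T ⟨hT.1, hlt.trans_le h12⟩
      have q2 := partX h2p hT
        (a := ta (m + 1) T (al m T (yM m T) (rM m T) (lam T)) (be' T) (-σ)
          + tb (m + 1) T (al m T (yM m T) (rM m T) (lam T)) (be' T) (-σ) * σ)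
        (b := tb (m + 1) T (al m T (yM m T) (rM m T) (lam T)) (be' T) (-σ))
        (α := al m T (yM m T) (rM m T) (lam T)) (β := be' T) fun s hs => by
          have h1 := comb_tangent_r (T := T) (s := s) (s0 := -σ) (q := m + 1) hT.1.le hT.2 hs
            ⟨by linarith, by linarith⟩ (hfr.hrel T hT) (by push_cast; linarith)
          unfold ta tb
          linarith
      rw [e2, e3] at q2
      have q4 := tb_nonneg_r (m := m) hσ hσ1 hT.1.le hT.2 (hfr.hrel T hT) hcv
      have q5 := mul_le_mul_of_nonneg_right (hB0 T hTT) hQn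
      have q6 : B1 T * min (Q1 + σ * Q0) 0
          ≤ 1 / 2 * tb (m + 1) T (al m T (yM m T) (rM m T) (lam T)) (be' T) (-σ)
            * (Q1 + σ * Q0) := by
        rcases le_total (Q1 + σ * Q0) 0 with h | h
        · rw [min_eq_left h]
          exact mul_le_mul_of_nonpos_right (hB1 T hTT) h
        · rw [min_eq_right h, mul_zero]
          exact mul_nonneg (by linarith) h
      have q7 := mul_le_mul_of_nonneg_right (add_le_add q5 q6) hA2.le
      rw [cut_lt B0 hlt, cut_lt B1 hlt]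
      linarith
    · have q2 := partX h2p hT (a := 0) (b := 0)
        (α := al m T (yM m T) (rM m T) (lam T)) (β := be' T) fun s hs =>
          ker_comb_nonneg hT hs (hfr.hpos T ⟨hT.1.le, hT.2⟩) (hfr.hrel T hT)
      rw [cut_ge B0 hge, cut_ge B1 hge]
      linarith) b
  rw [intervalIntegral.integral_add iB ((ie1.const_mul _).mul_const _),
    intervalIntegral.integral_add iA ((ie0.const_mul _).mul_const _),
    intervalIntegral.integral_add (j0.mul_const _) (j1.mul_const _)] at hL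
  simp only [intervalIntegral.integral_mul_const, intervalIntegral.integral_const_mul] at hL
  rw [e0, e1] at hL
  have e7 : ∫ T in (0 : ℝ)..1, T ^ 0 * eM m T = EM m 0 := rfl
  have e8 : ∫ T in (0 : ℝ)..1, T ^ 1 * eM m T = EM m 1 := rfl
  rw [e7, e8, EM_zero hm4] at hL
  unfold XL
  refine lt_of_eq_of_lt ?_ hL
  ring

/-- **the strict crude law** -/
theorem Ctx.lawU [Nonempty M] (C : Ctx V F N m) {ι : Type*} [Fintype ι] [DecidableEq ι]
    (b : OrthonormalBasis ι ℝ W) {T1 : ℝ} (hT1 : 0 ≤ T1)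
    (hT1' : T1 ≤ 1) {lam be' B0 τ : ℝ → ℝ} {T2 : ℝ} (hfr : Fra m lam be' T2) (h12 : T1 ≤ T2)
    (hl : ∀ T ∈ Ioo (0 : ℝ) (1 / 2), 1 ≤ (1 - T ^ 2) * lam T)
    (i0 : IntervalIntegrable B0 volume 0 T1)
    (hB0 : ∀ T ∈ Ioo (0 : ℝ) T1,
      B0 T ≤ 1 / 2 * (al m T (yM m T) (rM m T) (lam T) * ((1 + T) ^ (m + 1))⁻¹
        - be' T * ((1 + T) ^ (m + 2))⁻¹))
    (hτi : IntervalIntegrable τ volume 0 1)
    (hτ : ∀ T ∈ Ioo (0 : ℝ) 1, (m + 1) * (m + 2) * T ^ 2 * rM m T / (1 - T ^ 2) / 2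
      * E2 (volM V F) F N (TK m T ((1 - T ^ 2) * lam T)) ≤ τ T * (volM V F).real univ ^ 2) :
    (∫ T in (0 : ℝ)..T1, B0 T) * Qpt (nrm (volM V F)) m (co b F) (co b N)
      - ∫ T in (0 : ℝ)..1, τ T < m * rM m 0 * uu (nrm (volM V F)) (co b N) := by
  have hA := C.volPos
  have hfin : IsFiniteMeasure (volM V F) := isFiniteMeasure_volM C.hF
  have hm4 : 4 ≤ m := by have := C.h17; omega
  have hnz : NeZero (volM V F) := ⟨fun h => by
    rw [h] at hA
    simp at hA⟩
  have hT0 : T0Data (nrm (volM V F)) m (co b F) (co b N) := by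
    rw [C.hm]
    exact t0Data_of_min (by have := C.hm; omega) C.hW C.hF C.hmin C.hNs C.hN b
  have hmR : (m : ℝ) + 1 ≠ 0 := by positivity
  have h2p : Two (volM V F) m F N := by
    rw [C.hm]
    exact two_of_min C.hW C.hF C.hmin C.hNs C.hN
  have hc := certO_M hm4
  set A := (volM V F).real univ with hAdef
  obtain ⟨j0, e0⟩ := int_cut hT1 hT1' i0
  set Q0 := Qpt (nrm (volM V F)) m (co b F) (co b N) with hQ0
  have e2 : E2 (volM V F) F N Xk = A ^ 2 * Q0 := E2_Xk b hmR hT0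
  have hA2 : 0 < A ^ 2 := pow_pos hA 2
  have hQn : 0 ≤ Q0 := hT0.Qpt_nonneg (Nat.cast_nonneg m)
  have hL := C.strict hl hfr.hβ (j0.mul_const Q0) hτi hτ (fun T hT => by
    have q1 : 0 ≤ m * eM m T * E2 (volM V F) F N (fun k => SM2.ker T (m + 1) k.1 * Ck k) := by
      refine mul_nonneg (mul_nonneg (Nat.cast_nonneg m) (hc.e0 T hT)) (integral_nonneg fun q => ?_)
      exact mul_nonneg (ker_pos (m + 1) (one_sub_pos' ⟨hT.1.le, hT.2⟩ (h2p.pr_mem q).1.2)).le
        (sq_nonneg _)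
    rcases lt_or_ge T T1 with hlt | hge
    · have q2 := partX h2p hT (b := 0)
        (a := al m T (yM m T) (rM m T) (lam T) * ((1 + T) ^ (m + 1))⁻¹
          - be' T * ((1 + T) ^ (m + 2))⁻¹)
        (α := al m T (yM m T) (rM m T) (lam T)) (β := be' T) fun s hs => by
          have h1 := ker_ge_neg_one_r (m := m) hT hs (hfr.hrel T hT)
            (hfr.hconv T ⟨hT.1, hlt.trans_le h12⟩)
          linarith
      rw [e2] at q2
      have q5 := mul_le_mul_of_nonneg_right
        (mul_le_mul_of_nonneg_right (hB0 T ⟨hT.1, hlt⟩) hQn) hA2.le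
      rw [cut_lt B0 hlt]
      linarith
    · have q2 := partX h2p hT (a := 0) (b := 0)
        (α := al m T (yM m T) (rM m T) (lam T)) (β := be' T) fun s hs =>
          ker_comb_nonneg hT hs (hfr.hpos T ⟨hT.1.le, hT.2⟩) (hfr.hrel T hT)
      rw [cut_ge B0 hge]
      linarith) b
  simp only [intervalIntegral.integral_mul_const] at hL
  rw [e0] at hL
  exact hL

end

end Vale.Agent.N224
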